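import Mathlib.LinearAlgebra.Matrix.ToLin
import Mathlib.LinearAlgebra.Matrix.NonsingularInverse
import Mathlib.LinearAlgebra.Basis.VectorSpace
import Mathlib.LinearAlgebra.Isomorphisms
import Mathlib.Data.ZMod.Basic
import Mathlib.Algebra.Field.ZMod

/-!
# P029: exactness modulo two implies exactness over every ring in which the odd integers are units
-/

namespace Vale.Agent.P029.H140

open Matrix

/-- An odd integer is a unit of a ring in which the odd natural numbers are units. -/
theorem isUnit_odd {R : Type*} [CommRing R] (hR : ∀ m : ℕ, Odd m → IsUnit (m : R)) {a : ℤ}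
    (ha : Odd a) : IsUnit (a : R) := by
  have h := hR a.natAbs (Int.natAbs_odd.2 ha)
  rcases Int.natAbs_eq a with h1 | h1
  · rw [h1, Int.cast_natCast]
    exact h
  · rw [h1, Int.cast_neg, Int.cast_natCast]
    exact h.neg

/-- An integral square matrix which is the identity modulo two is invertible over every ring in
which the odd integers are units. -/
theorem isUnit_map {R : Type*} [CommRing R] (hR : ∀ m : ℕ, Odd m → IsUnit (m : R)) {n : Type*}
    [Fintype n] [DecidableEq n] (U : Matrix n n ℤ)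
    (hU : U.map (Int.castRingHom (ZMod 2)) = 1) : IsUnit (U.map (Int.castRingHom R)) := by
  rw [Matrix.isUnit_iff_isUnit_det]
  have h1 : (U.map (Int.castRingHom R)).det = ((U.det : ℤ) : R) := by
    have := RingHom.map_det (Int.castRingHom R) U
    rw [RingHom.mapMatrix_apply] at this
    rw [← this]
    rfl
  have h2 : ((U.det : ℤ) : ZMod 2) = 1 := by
    have := RingHom.map_det (Int.castRingHom (ZMod 2)) U
    rw [RingHom.mapMatrix_apply, hU, Matrix.det_one] at this
    exact this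
  rw [h1]
  apply isUnit_odd hR
  rw [← Int.not_even_iff_odd]
  intro he
  have h3 : ((U.det : ℤ) : ZMod 2) = 0 := (ZMod.intCast_zmod_eq_zero_iff_dvd _ 2).2
    (even_iff_two_dvd.1 he)
  rw [h3] at h2
  exact absurd h2 (by decide)

/-- A matrix over `ℤ/2` lifts to an integral matrix. -/
theorem exists_lift {m n : Type*} (B : Matrix m n (ZMod 2)) :
    ∃ C : Matrix m n ℤ, C.map (Int.castRingHom (ZMod 2)) = B := by
  refine ⟨fun i j => ((B i j).val : ℤ), ?_⟩
  ext i j
  show (((B i j).val : ℤ) : ZMod 2) = B i j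
  rw [Int.cast_natCast, ZMod.natCast_zmod_val]

/-- A linear map which kills the kernel of another one factors through it. -/
theorem exists_factor {K V U W : Type*} [Field K] [AddCommGroup V] [Module K V] [AddCommGroup U]
    [Module K U] [AddCommGroup W] [Module K W] (f : V →ₗ[K] U) (h : V →ₗ[K] W)
    (hk : LinearMap.ker f ≤ LinearMap.ker h) : ∃ g : U →ₗ[K] W, g ∘ₗ f = h := by
  let h1 : LinearMap.range f →ₗ[K] W :=
    ((LinearMap.ker f).liftQ h hk) ∘ₗ (f.quotKerEquivRange.symm : LinearMap.range f →ₗ[K] _)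
  obtain ⟨g, hg⟩ := LinearMap.exists_extend h1
  refine ⟨g, ?_⟩
  ext v
  have h2 : g (f v) = h1 ⟨f v, LinearMap.mem_range_self f v⟩ := by
    rw [← hg]
    rfl
  rw [LinearMap.comp_apply, h2]
  have h3 : f.quotKerEquivRange.symm ⟨f v, LinearMap.mem_range_self f v⟩ =
      (LinearMap.ker f).mkQ v := by
    rw [LinearEquiv.symm_apply_eq]
    exact Subtype.ext rfl
  show ((LinearMap.ker f).liftQ h hk) (f.quotKerEquivRange.symm ⟨f v, _⟩) = h v
  rw [h3]
  exact Submodule.liftQ_apply _ _ _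

/-- Exactness modulo two implies exactness over every ring in which the odd integers are units. -/
theorem two_local {k d : ℕ} {I : Type*} (A : Fin k → Fin d → ℤ) (mu : Fin k → I → ℤ)
    (h0 : ∀ i l, ∑ j, A j l * mu j i = 0)
    (h1 : ∀ v : Fin d → ZMod 2, (∀ j, ∑ l, (A j l : ZMod 2) * v l = 0) → v = 0)
    (h2 : ∀ c : Fin k → ZMod 2, (∀ i, ∑ j, c j * (mu j i : ZMod 2) = 0) →
      ∃ v : Fin d → ZMod 2, ∀ j, c j = ∑ l, (A j l : ZMod 2) * v l)
    (R : Type*) [CommRing R] (hR : ∀ m : ℕ, Odd m → IsUnit (m : R)) :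
    (∀ v : Fin d → R, (∀ j, ∑ l, (A j l : R) * v l = 0) → v = 0) ∧
    ∀ c : Fin k → R, (∀ i, ∑ j, c j * (mu j i : R) = 0) →
      ∃ v : Fin d → R, ∀ j, c j = ∑ l, (A j l : R) * v l := by
  classical
  let AZ : Matrix (Fin k) (Fin d) ℤ := A
  let A2 : Matrix (Fin k) (Fin d) (ZMod 2) := AZ.map (Int.castRingHom (ZMod 2))
  have hA2 : ∀ v j, (A2 *ᵥ v) j = ∑ l, (A j l : ZMod 2) * v l := fun v j => rfl
  have inj : LinearMap.ker (Matrix.toLin' A2) = ⊥ := by
    rw [LinearMap.ker_eq_bot']
    intro v hv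
    apply h1
    intro j
    rw [← hA2, ← Matrix.toLin'_apply, hv]
    rfl
  obtain ⟨g, hg⟩ := LinearMap.exists_leftInverse_of_injective _ inj
  -- the finite set of equations
  let V' : Type := {v : Fin k → ZMod 2 // ∃ i, ∑ j, v j * (mu j i : ZMod 2) ≠ 0}
  have : Fintype V' := Fintype.ofFinite _
  let ix : V' → I := fun v => v.2.choose
  have hix : ∀ v : V', ∑ j, v.1 j * (mu j (ix v) : ZMod 2) ≠ 0 := fun v => v.2.choose_spec
  let MZ : Matrix V' (Fin k) ℤ := fun v j => mu j (ix v)
  let M2 : Matrix V' (Fin k) (ZMod 2) := MZ.map (Int.castRingHom (ZMod 2))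
  have hM2 : ∀ c v, (M2 *ᵥ c) v = ∑ j, c j * (mu j (ix v) : ZMod 2) := by
    intro c v
    show ∑ j, (mu j (ix v) : ZMod 2) * c j = _
    exact Finset.sum_congr rfl fun j _ => mul_comm _ _
  have hker : LinearMap.ker (Matrix.toLin' M2) ≤
      LinearMap.ker (LinearMap.id - Matrix.toLin' A2 ∘ₗ g) := by
    intro c hc
    rw [LinearMap.mem_ker] at hc ⊢
    have hc' : ∀ i, ∑ j, c j * (mu j i : ZMod 2) = 0 := by
      by_contra hcon
      push Not at hcon
      have := hix ⟨c, hcon⟩
      apply this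
      rw [← hM2, ← Matrix.toLin'_apply, hc]
      rfl
    obtain ⟨v, hv⟩ := h2 c hc'
    have hcv : c = Matrix.toLin' A2 v := by
      funext j
      rw [Matrix.toLin'_apply, hA2]
      exact hv j
    have hgv : g (Matrix.toLin' A2 v) = v := DFunLike.congr_fun hg v
    rw [hcv, LinearMap.sub_apply, LinearMap.comp_apply, hgv, LinearMap.id_apply, sub_self]
  obtain ⟨ν, hν⟩ := exists_factor _ _ hker
  obtain ⟨B, hB⟩ := exists_lift (LinearMap.toMatrix' g)
  obtain ⟨N, hN⟩ := exists_lift (LinearMap.toMatrix' ν)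
  have hBA : (B * AZ).map (Int.castRingHom (ZMod 2)) = 1 := by
    rw [Matrix.map_mul, hB]
    have := congrArg LinearMap.toMatrix' hg
    rw [LinearMap.toMatrix'_comp, LinearMap.toMatrix'_toLin', LinearMap.toMatrix'_id] at this
    exact this
  have hU : (AZ * B + N * MZ).map (Int.castRingHom (ZMod 2)) = 1 := by
    rw [Matrix.map_add _ (map_add _), Matrix.map_mul, Matrix.map_mul, hB, hN]
    have := congrArg LinearMap.toMatrix' hν
    rw [LinearMap.toMatrix'_comp, LinearMap.toMatrix'_toLin', map_sub, LinearMap.toMatrix'_comp,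
      LinearMap.toMatrix'_toLin', LinearMap.toMatrix'_id] at this
    change A2 * _ + _ * M2 = 1
    rw [this]
    abel
  have hMA : MZ * AZ = 0 := by
    ext v l
    show ∑ j, mu j (ix v) * A j l = 0
    rw [← h0 (ix v) l]
    exact Finset.sum_congr rfl fun j _ => mul_comm _ _
  -- over `R`
  have uBA := isUnit_map hR _ hBA
  have uU := isUnit_map hR _ hU
  let AR : Matrix (Fin k) (Fin d) R := AZ.map (Int.castRingHom R)
  let BR : Matrix (Fin d) (Fin k) R := B.map (Int.castRingHom R)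
  let NR : Matrix (Fin k) V' R := N.map (Int.castRingHom R)
  let MR : Matrix V' (Fin k) R := MZ.map (Int.castRingHom R)
  have eBA : (B * AZ).map (Int.castRingHom R) = BR * AR := Matrix.map_mul
  have eU : (AZ * B + N * MZ).map (Int.castRingHom R) = AR * BR + NR * MR := by
    rw [Matrix.map_add _ (map_add _), Matrix.map_mul, Matrix.map_mul]
  have eMA : MR * AR = 0 := by
    have := congrArg (fun X => X.map (Int.castRingHom R)) hMA
    simp only [Matrix.map_mul] at this
    rw [this]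
    ext i j
    simp
  rw [eBA] at uBA
  rw [eU] at uU
  obtain ⟨C, hC1, hC2⟩ : ∃ C, C * (BR * AR) = 1 ∧ (BR * AR) * C = 1 := by
    obtain ⟨u, hu⟩ := uBA
    exact ⟨↑u⁻¹, by rw [← hu, Units.inv_mul], by rw [← hu, Units.mul_inv]⟩
  obtain ⟨E, hE⟩ : ∃ E, E * (AR * BR + NR * MR) = 1 := by
    obtain ⟨u, hu⟩ := uU
    exact ⟨↑u⁻¹, by rw [← hu, Units.inv_mul]⟩
  have hAR : ∀ v j, (AR *ᵥ v) j = ∑ l, (A j l : R) * v l := fun v j => rfl
  refine ⟨fun v hv => ?_, fun c hc => ?_⟩
  · have e : AR *ᵥ v = 0 := by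
      funext j
      rw [hAR]
      exact hv j
    have : (C * (BR * AR)) *ᵥ v = 0 := by
      rw [← Matrix.mulVec_mulVec, ← Matrix.mulVec_mulVec, e, Matrix.mulVec_zero,
        Matrix.mulVec_zero]
    rwa [hC1, Matrix.one_mulVec] at this
  · have e : MR *ᵥ c = 0 := by
      funext v
      show ∑ j, (mu j (ix v) : R) * c j = 0
      rw [← hc (ix v)]
      exact Finset.sum_congr rfl fun j _ => mul_comm _ _
    refine ⟨C *ᵥ (BR *ᵥ c), fun j => ?_⟩
    have k1 : (AR * BR + NR * MR) *ᵥ c = AR *ᵥ (BR *ᵥ c) := by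
      rw [Matrix.add_mulVec, ← Matrix.mulVec_mulVec, ← Matrix.mulVec_mulVec, e,
        Matrix.mulVec_zero, add_zero]
    have k2 : (AR * BR + NR * MR) * AR = AR * (BR * AR) := by
      rw [Matrix.add_mul, Matrix.mul_assoc NR, eMA, Matrix.mul_zero, add_zero, Matrix.mul_assoc]
    have k3 : (AR * BR + NR * MR) *ᵥ (AR *ᵥ (C *ᵥ (BR *ᵥ c))) = AR *ᵥ (BR *ᵥ c) := by
      rw [Matrix.mulVec_mulVec, k2, Matrix.mulVec_mulVec, Matrix.mul_assoc, hC2, Matrix.mul_one]
    have k4 : c = AR *ᵥ (C *ᵥ (BR *ᵥ c)) := by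
      have k5 := congrArg (fun x => E *ᵥ x) (k1.trans k3.symm)
      simp only [Matrix.mulVec_mulVec] at k5
      rw [← Matrix.mul_assoc, hE] at k5
      simpa [Matrix.mulVec_mulVec] using k5
    have := congrFun k4 j
    rw [hAR] at this
    exact this

end Vale.Agent.P029.H140
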