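import Vale.Agent.P029.Bdl.B2
import Vale.Agent.P029.H819.T4R

/-!
# P029: the homogeneous components of a solution over `R` are solutions
-/

noncomputable section

attribute [local instance 100] LieRing.ofAssociativeRing

namespace Vale.Agent.P029.H140.Homog

open Vale.Agent.P029 Low Low.Z819

variable {R : Type} [CommRing R]

/-- The weights on the letters `t i j`. -/
abbrev w1 {X : Type} : X → ℕ := fun _ => 1

theorem tt_wt (i j : Fin 4) : H819.tt R i j ∈ wtPart R (w1 (X := Fin 4 × Fin 4)) 1 :=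
  Submodule.subset_span ⟨Tr.leaf (i, j), rfl, rfl⟩

theorem rel_wt {r : H819.FT R} (h : H819.T4Rel R r) :
    ∃ n, r ∈ wtPart R (w1 (X := Fin 4 × Fin 4)) n := by
  cases h with
  | diag i => exact ⟨1, tt_wt i i⟩
  | symm i j => exact ⟨1, sub_mem (tt_wt i j) (tt_wt j i)⟩
  | comm i j k l _ _ _ _ _ _ => exact ⟨1 + 1, wt_lie (tt_wt i j) (tt_wt k l)⟩
  | tri i j k _ _ _ => exact ⟨1 + 1, wt_lie (tt_wt i j) (add_mem (tt_wt i k) (tt_wt j k))⟩

/-- The part of weight `n` of the ideal. -/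
def J (R : Type) [CommRing R] (n : ℕ) : Submodule R (H819.FT R) :=
  (H819.T4Ideal R : LieIdeal R (H819.FT R)).toSubmodule ⊓ wtPart R w1 n

theorem lie_mem_J (x m : H819.FT R) (hm : m ∈ (⨆ n, J R n : Submodule R (H819.FT R))) :
    ⁅x, m⁆ ∈ (⨆ n, J R n : Submodule R (H819.FT R)) := by
  have hx := mem_all (R := R) (w1 (X := Fin 4 × Fin 4)) x
  induction hx using Submodule.iSup_induction' with
  | mem k x hx =>
    induction hm using Submodule.iSup_induction' with
    | mem n y hy =>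
      obtain ⟨h1, h2⟩ := Submodule.mem_inf.1 hy
      refine Submodule.mem_iSup_of_mem (k + n) (Submodule.mem_inf.2 ⟨?_, wt_lie hx h2⟩)
      exact lie_mem_right R (H819.FT R) (H819.T4Ideal R) x y h1
    | zero => rw [lie_zero]; exact zero_mem _
    | add y z _ _ hy hz => rw [lie_add]; exact add_mem hy hz
  | zero => rw [zero_lie]; exact zero_mem _
  | add x z _ _ hx hz => rw [add_lie]; exact add_mem hx hz

/-- The sum of the homogeneous parts as an ideal. -/
def JI (R : Type) [CommRing R] : LieIdeal R (H819.FT R) :=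
  { (⨆ n, J R n : Submodule R (H819.FT R)) with
    lie_mem := fun {x m} hm => lie_mem_J x m hm }

theorem ideal_le : H819.T4Ideal R ≤ JI R := by
  refine LieSubmodule.lieSpan_le.2 ?_
  intro r hr
  obtain ⟨n, hn⟩ := rel_wt hr
  exact Submodule.mem_iSup_of_mem (p := J R) n
    (Submodule.mem_inf.2 ⟨LieSubmodule.subset_lieSpan hr, hn⟩)

/-- The homogeneous components of an element of the ideal are in the ideal. -/
theorem comp_mem (s : Finset ℕ) (a : ℕ → H819.FT R) (ha : ∀ n ∈ s, a n ∈ wtPart R w1 n)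
    (h : ∑ n ∈ s, a n ∈ H819.T4Ideal R) : ∀ n ∈ s, a n ∈ H819.T4Ideal R := by
  have h1 : ∑ n ∈ s, a n ∈ (⨆ n, J R n : Submodule R (H819.FT R)) := ideal_le h
  obtain ⟨v, hv, hs⟩ := (Submodule.mem_iSup_iff_exists_finsupp ..).mp h1
  have hz := sum_eq_zero (R := R) (w := w1 (X := Fin 4 × Fin 4)) (fun _ => one_pos)
    (fun _ => Set.toFinite _) (s ∪ v.support) (fun n => (if n ∈ s then a n else 0) - v n)
    (fun n _ => sub_mem (by
      split_ifs with hn
      · exact ha n hn
      · exact zero_mem _) (Submodule.mem_inf.1 (hv n)).2) (by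
      rw [Finset.sum_sub_distrib, sub_eq_zero]
      have e1 : ∑ n ∈ s ∪ v.support, (if n ∈ s then a n else 0) = ∑ n ∈ s, a n := by
        rw [Finset.sum_ite_mem, Finset.union_inter_cancel_left]
      have e2 : ∑ n ∈ s ∪ v.support, v n = ∑ n ∈ v.support, v n := by
        refine (Finset.sum_subset Finset.subset_union_right fun n _ hn => ?_).symm
        exact Finsupp.notMem_support_iff.1 hn
      rw [e1, e2]
      exact hs.symm)
  intro n hn
  have h2 := hz n (Finset.mem_union_left _ hn)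
  simp only [if_pos hn] at h2
  rw [sub_eq_zero.1 h2]
  exact (Submodule.mem_inf.1 (hv n)).1

/-- The pentagon as an element of the free Lie algebra. -/
def pen (ψ : LK R) : H819.FT R :=
  sb (H819.tt R 0 1) (H819.tt R 1 2 + H819.tt R 1 3) ψ
    + sb (H819.tt R 0 2 + H819.tt R 1 2) (H819.tt R 2 3) ψ - (sb (H819.tt R 1 2) (H819.tt R 2 3) ψ
    + sb (H819.tt R 0 1 + H819.tt R 0 2) (H819.tt R 1 3 + H819.tt R 2 3) ψ
    + sb (H819.tt R 0 1) (H819.tt R 1 2) ψ)

theorem penta_iff (ψ : LK R) : H819.Penta R ψ ↔ pen ψ ∈ H819.T4Ideal R := by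
  have key : ∀ a b : H819.FT R, sb (LieSubmodule.Quotient.mk a : H819.T4 R)
      (LieSubmodule.Quotient.mk b) ψ = LieSubmodule.Quotient.mk (sb a b ψ) := by
    intro a b
    have := map_sb (qR R) a b ψ
    exact this.symm
  have k1 := key (H819.tt R 0 1) (H819.tt R 1 2 + H819.tt R 1 3)
  have k2 := key (H819.tt R 0 2 + H819.tt R 1 2) (H819.tt R 2 3)
  have k3 := key (H819.tt R 1 2) (H819.tt R 2 3)
  have k4 := key (H819.tt R 0 1 + H819.tt R 0 2) (H819.tt R 1 3 + H819.tt R 2 3)
  have k5 := key (H819.tt R 0 1) (H819.tt R 1 2)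
  have e1 : H819.Penta R ψ ↔ sb (LieSubmodule.Quotient.mk (H819.tt R 0 1) : H819.T4 R)
        (LieSubmodule.Quotient.mk (H819.tt R 1 2 + H819.tt R 1 3)) ψ
      + sb (LieSubmodule.Quotient.mk (H819.tt R 0 2 + H819.tt R 1 2) : H819.T4 R)
        (LieSubmodule.Quotient.mk (H819.tt R 2 3)) ψ
      = (sb (LieSubmodule.Quotient.mk (H819.tt R 1 2) : H819.T4 R)
        (LieSubmodule.Quotient.mk (H819.tt R 2 3)) ψ
      + sb (LieSubmodule.Quotient.mk (H819.tt R 0 1 + H819.tt R 0 2) : H819.T4 R)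
        (LieSubmodule.Quotient.mk (H819.tt R 1 3 + H819.tt R 2 3)) ψ
      + sb (LieSubmodule.Quotient.mk (H819.tt R 0 1) : H819.T4 R)
        (LieSubmodule.Quotient.mk (H819.tt R 1 2)) ψ) := Iff.rfl
  have e2 : pen ψ ∈ H819.T4Ideal R ↔ (LieSubmodule.Quotient.mk (pen ψ) : H819.T4 R) = 0 :=
    LieSubmodule.Quotient.mk_eq_zero'.symm
  rw [e1, e2, k1, k2, k3, k4, k5, ← sub_eq_zero]
  exact Iff.rfl

theorem pen_add (ψ φ : LK R) : pen (ψ + φ) = pen ψ + pen φ := by
  simp only [pen, map_add]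
  abel

theorem pen_zero : pen (0 : LK R) = 0 := by simp [pen]

theorem pen_sum (s : Finset ℕ) (c : ℕ → LK R) : pen (∑ n ∈ s, c n) = ∑ n ∈ s, pen (c n) := by
  classical
  induction s using Finset.induction_on with
  | empty => simp [pen_zero]
  | insert n s hn ih => rw [Finset.sum_insert hn, Finset.sum_insert hn, pen_add, ih]

theorem pen_wt {n : ℕ} {ψ : LK R} (h : ψ ∈ wt2 R n) : pen ψ ∈ wtPart R w1 n := by
  have t := tt_wt (R := R)
  exact sub_mem (add_mem (sb_wt (t 0 1) (add_mem (t 1 2) (t 1 3)) h)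
    (sb_wt (add_mem (t 0 2) (t 1 2)) (t 2 3) h))
    (add_mem (add_mem (sb_wt (t 1 2) (t 2 3) h)
      (sb_wt (add_mem (t 0 1) (t 0 2)) (add_mem (t 1 3) (t 2 3)) h)) (sb_wt (t 0 1) (t 1 2) h))

end Vale.Agent.P029.H140.Homog

namespace Vale.Agent.P029.H140

open Vale.Agent.P029 Low Low.Z819 Homog

/-- The homogeneous components of a solution are solutions. -/
theorem comps (R : Type) [CommRing R] {psi : H819.L R} (h : H819.IsW R psi) :
    ∃ (N : ℕ) (c : ℕ → H819.L R), (∀ n, H819.IsWn R n (c n)) ∧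
      psi = ∑ n ∈ Finset.range N, c n := by
  obtain ⟨s, hs, hsum⟩ := exists_sum (R := R) (w1 (X := Fin 2)) psi
  obtain ⟨N, hN⟩ : ∃ N, s.support ⊆ Finset.range N :=
    ⟨s.support.sup id + 1, fun n hn => Finset.mem_range.2
      (Nat.lt_succ_of_le (Finset.le_sup (f := id) hn))⟩
  have hpsi : psi = ∑ n ∈ Finset.range N, s n := by
    rw [← hsum]
    exact Finset.sum_subset hN fun n _ hn => Finsupp.notMem_support_iff.1 hn
  have hz : ∀ n, n ∉ Finset.range N → s n = 0 := fun n hn =>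
    Finsupp.notMem_support_iff.1 fun h => hn (hN h)
  obtain ⟨hA, hH, hP⟩ := h
  rw [anti_iff] at hA
  rw [hexa_iff] at hH
  rw [penta_iff] at hP
  have hA' := sum_eq_zero (R := R) (w := w1 (X := Fin 2)) (fun _ => one_pos)
    (fun _ => Set.toFinite _) (Finset.range N) (fun n => s n + sb (Low.ky R) (Low.kx R) (s n))
    (fun n _ => add_mem (hs n) (sb_wt ky_wt kx_wt (hs n))) (by
      rw [hpsi, map_sum] at hA
      rw [Finset.sum_add_distrib]
      exact hA)
  have hH' := sum_eq_zero (R := R) (w := w1 (X := Fin 2)) (fun _ => one_pos)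
    (fun _ => Set.toFinite _) (Finset.range N)
    (fun n => s n + sb (Low.ky R) (-Low.kx R - Low.ky R) (s n) + sb (-Low.kx R - Low.ky R) (Low.kx R) (s n))
    (fun n _ => add_mem (add_mem (hs n) (sb_wt ky_wt kz_wt (hs n))) (sb_wt kz_wt kx_wt (hs n)))
    (by
      rw [hpsi, map_sum, map_sum] at hH
      rw [Finset.sum_add_distrib, Finset.sum_add_distrib]
      exact hH)
  have hP' := comp_mem (R := R) (Finset.range N) (fun n => pen (s n))
    (fun n _ => pen_wt (hs n)) (by
      rw [← pen_sum, ← hpsi]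
      exact hP)
  refine ⟨N, s, fun n => ⟨⟨?_, ?_, ?_⟩, ?_⟩, hpsi⟩
  · rw [anti_iff]
    by_cases hn : n ∈ Finset.range N
    · exact hA' n hn
    · rw [hz n hn, map_zero, add_zero]
  · rw [hexa_iff]
    by_cases hn : n ∈ Finset.range N
    · exact hH' n hn
    · rw [hz n hn, map_zero, map_zero, add_zero, add_zero]
  · rw [penta_iff]
    by_cases hn : n ∈ Finset.range N
    · exact hP' n hn
    · rw [hz n hn, pen_zero]
      exact zero_mem _
  · rw [wtPart_eq]
    exact hs n

end Vale.Agent.P029.H140
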