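import Vale.Agent.P029.Bdl.B2

/-!
# P029: homogeneous additive elements are Lie elements if the degree is invertible
-/

noncomputable section

attribute [local instance 100] LieRing.ofAssociativeRing

namespace Vale.Agent.P029.H140

open Vale.Agent.P029 Low Low.Friedrichs

/-- Homogeneous additive elements of degree `n` of the free associative algebra over a field in
which `n` is invertible are Lie elements. -/
theorem lie_of_add' {K : Type} [Field K] {n : ℕ} (hn : 1 ≤ n) (hn0 : (n : K) ≠ 0) {χ : FA K}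
    (hhom : hp n χ = χ)
    (hadd : ∀ (B : Type) [Ring B] [Algebra K B] (a b a' b' : B),
      a * a' = a' * a → a * b' = b' * a → b * a' = a' * b → b * b' = b' * b →
      ev (a + a') (b + b') χ = ev a b χ + ev a' b' χ) :
    ∃ ψ ∈ wt2 K n, toFree K (Fin 2) ψ = χ := by
  have hχ : χ ∈ Wd K n := by rw [← hhom]; exact hp_mem χ n
  have hc : ∀ i j : Fin 2, la K i * ra K j = ra K j * la K i := by
    intro i j
    refine LinearMap.ext fun Z => ?_
    rw [Module.End.mul_apply, Module.End.mul_apply, LinearMap.neg_apply, LinearMap.neg_apply,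
      LinearMap.mulLeft_apply, LinearMap.mulLeft_apply, LinearMap.mulRight_apply,
      LinearMap.mulRight_apply, mul_neg, mul_assoc]
  have h := hadd (Module.End K (Module.End K (FA K))) (la K 0) (la K 1) (ra K 0) (ra K 1)
    (hc 0 0) (hc 0 1) (hc 1 0) (hc 1 1)
  obtain ⟨S, hS⟩ := ev_ra χ
  rw [ev_la, hS] at h
  have hZ : ∀ Z, Ph K χ Z = lam K χ * Z + Z * S := fun Z => by
    change ev (la K 0 + ra K 0) (la K 1 + ra K 1) χ Z = _
    rw [h, LinearMap.add_apply, LinearMap.mulLeft_apply, LinearMap.mulRight_apply]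
  have hS' : S = -lam K χ := by
    have h1 := hZ 1
    rw [Ph_one' hn hχ, mul_one, one_mul] at h1
    exact eq_neg_of_add_eq_zero_right h1.symm
  obtain ⟨ψ, hψ, h2⟩ := Ph_Eu' hn hχ
  rw [hZ, hS'] at h2
  have h3 := congrArg (fun f : Module.End K (FA K) => f 1) h2
  have h4 : χ * Eu K 1 - Eu K (χ * 1) = -(toFree K (Fin 2) ψ * 1) := by
    rw [sub_eq_add_neg]
    have : (lam K χ * Eu K + Eu K * -lam K χ) 1 = χ * Eu K 1 + -Eu K (χ * 1) := by
      rw [LinearMap.add_apply, Module.End.mul_apply, Module.End.mul_apply, LinearMap.neg_apply,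
        map_neg, lam_mul, lam_mul]
    rw [← this]
    exact h3
  rw [Eu_one, mul_zero, mul_one, mul_one, zero_sub, neg_inj, Eu_Wd hχ] at h4
  refine ⟨(n : K)⁻¹ • ψ, Submodule.smul_mem _ _ hψ, ?_⟩
  rw [map_smul, ← h4, smul_smul, inv_mul_cancel₀ hn0, one_smul]

end Vale.Agent.P029.H140
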