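import Vale.Agent.P029.H819.PDefs

/-!
# P029: integral linear systems whose rank does not drop modulo `p`
-/

noncomputable section

namespace Vale.Agent.P029.H140

open Matrix Vale.Agent.P029.Odd

theorem mem_ZP {p : ℕ} [Fact p.Prime] {a : ℂ} :
    a ∈ ZP p ↔ ∃ m d : ℤ, ¬ (p : ℤ) ∣ d ∧ (d : ℂ) * a = m := Iff.rfl

/-- The solutions in `K` of a homogeneous linear system with integral coefficients. -/
def kr (K : Type) [CommRing K] {W ι : Type} [Fintype ι] (A : W → ι → ℤ) :
    Submodule K (ι → K) where
  carrier := {c | ∀ w, ∑ j, (A w j : K) * c j = 0}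
  add_mem' := by
    intro c d hc hd w
    have h1 := hc w
    have h2 := hd w
    simp only [Pi.add_apply, mul_add, Finset.sum_add_distrib, h1, h2, add_zero]
  zero_mem' := by
    intro w
    simp
  smul_mem' := by
    intro r c hc w
    have h1 := hc w
    have e : ∀ j, (A w j : K) * (r • c) j = r * ((A w j : K) * c j) := by
      intro j
      rw [Pi.smul_apply, smul_eq_mul]
      ring
    simp only [e, ← Finset.mul_sum, h1, mul_zero]

theorem mem_kr {K : Type} [CommRing K] {W ι : Type} [Fintype ι] {A : W → ι → ℤ} {c : ι → K} :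
    c ∈ kr K A ↔ ∀ w, ∑ j, (A w j : K) * c j = 0 := Iff.rfl

theorem exists_right_inv {K κ ι : Type} [Field K] [Fintype κ] [DecidableEq κ] [Fintype ι]
    [DecidableEq ι] (B : Matrix κ ι K) (h : LinearIndependent K (fun k => B k)) :
    ∃ S : Matrix ι κ K, B * S = 1 := by
  have hinj : Function.Injective B.vecMul := Matrix.vecMul_injective_iff.2 h
  have hk : LinearMap.ker B.vecMulLinear = ⊥ := LinearMap.ker_eq_bot.2 hinj
  obtain ⟨g, hg⟩ := LinearMap.exists_leftInverse_of_injective _ hk
  refine ⟨Matrix.of fun j k => g (Pi.single j 1) k, ?_⟩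
  ext k l
  rw [Matrix.mul_apply]
  have h1 : g (B k) l = ∑ j, B k j * g (Pi.single j 1) l := by
    conv_lhs => rw [LinearMap.pi_apply_eq_sum_univ g (B k)]
    rw [Finset.sum_apply]
    refine Finset.sum_congr rfl fun j _ => ?_
    rw [Pi.smul_apply, smul_eq_mul]
    have e : (fun j' => if j = j' then (1 : K) else 0) = Pi.single j 1 := by
      funext j'
      rw [Pi.single_apply]
      exact if_congr eq_comm rfl rfl
    rw [e]
  have h2 : B.vecMulLinear (Pi.single k 1) = B k := by
    rw [Matrix.vecMulLinear_apply, Matrix.single_one_vecMul]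
    rfl
  have h3 := LinearMap.congr_fun hg (Pi.single k 1)
  rw [LinearMap.comp_apply, h2, LinearMap.id_apply] at h3
  simp only [Matrix.of_apply]
  rw [← h1, h3, Matrix.one_apply, Pi.single_apply]
  exact if_congr eq_comm rfl rfl

theorem finrank_ker {K κ ι : Type} [Field K] [Fintype κ] [DecidableEq κ] [Fintype ι]
    [DecidableEq ι] (B : Matrix κ ι K) (S : Matrix ι κ K) (h : B * S = 1) :
    Module.finrank K (LinearMap.ker B.mulVecLin) + Fintype.card κ = Fintype.card ι := by
  have h1 := LinearMap.finrank_range_add_finrank_ker B.mulVecLin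
  have h2 : LinearMap.range B.mulVecLin = ⊤ := by
    rw [LinearMap.range_eq_top]
    intro v
    exact ⟨S *ᵥ v, by rw [Matrix.mulVecLin_apply, Matrix.mulVec_mulVec, h, Matrix.one_mulVec]⟩
  rw [h2, finrank_top, Module.finrank_fintype_fun_eq_card,
    Module.finrank_fintype_fun_eq_card] at h1
  omega

theorem la {p : ℕ} [Fact p.Prime] {W ι : Type} [Fintype ι] (A : W → ι → ℤ)
    (hdim : Module.finrank (ZMod p) (kr (ZMod p) A) ≤ Module.finrank ℂ (kr ℂ A))
    (τ : ℂ) (c : ι → ℂ)
    (hc : ∀ w, ∃ a ∈ ZP p, ∑ j, (A w j : ℂ) * c j = τ * a) :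
    ∃ c' : ι → ℂ, (∀ j, c' j ∈ ZP p) ∧ ∀ w, ∑ j, (A w j : ℂ) * (c j - τ * c' j) = 0 := by
  classical
  obtain ⟨κ, a, -, hspan, hli⟩ :=
    exists_linearIndependent' (ZMod p) (fun w : W => fun j => (A w j : ZMod p))
  have : Finite κ := hli.finite
  let _ : Fintype κ := Fintype.ofFinite κ
  let B : Matrix κ ι ℤ := Matrix.of fun k j => A (a k) j
  let cp : ℤ →+* ZMod p := Int.castRingHom (ZMod p)
  let cc : ℤ →+* ℂ := Int.castRingHom ℂ
  have hliB : LinearIndependent (ZMod p) (fun k => (B.map cp) k) := hli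
  obtain ⟨Sp, hSp⟩ := exists_right_inv (B.map cp) hliB
  have hlift : ∀ x : ZMod p, ∃ z : ℤ, cp z = x := fun x => ZMod.intCast_surjective x
  choose lf hlf using hlift
  let S : Matrix ι κ ℤ := Sp.map lf
  have hS : S.map cp = Sp := by
    ext i k
    exact hlf _
  have hM : (B * S).map cp = 1 := by
    rw [Matrix.map_mul, hS, hSp]
  have hdet : ¬ (p : ℤ) ∣ (B * S).det := by
    intro h
    have h1 : cp (B * S).det = 0 := (ZMod.intCast_zmod_eq_zero_iff_dvd _ _).2 h
    rw [RingHom.map_det, RingHom.mapMatrix_apply, hM, Matrix.det_one] at h1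
    exact one_ne_zero h1
  have hdet0 : ((B * S).det : ℂ) ≠ 0 := by
    intro h
    apply hdet
    rw [Int.cast_eq_zero.1 h]
    exact dvd_zero _
  -- the two kernels
  have hkp : kr (ZMod p) A = LinearMap.ker (B.map cp).mulVecLin := by
    ext d
    rw [mem_kr, LinearMap.mem_ker, Matrix.mulVecLin_apply]
    constructor
    · intro h
      funext k
      exact h (a k)
    · intro h w
      let φ : (ι → ZMod p) →ₗ[ZMod p] ZMod p :=
        { toFun := fun v => ∑ j, v j * d j
          map_add' := by
            intro u v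
            simp only [Pi.add_apply, add_mul, Finset.sum_add_distrib]
          map_smul' := by
            intro r v
            simp only [Pi.smul_apply, smul_eq_mul, mul_assoc, RingHom.id_apply, Finset.mul_sum] }
      have h1 : Submodule.span (ZMod p) (Set.range (fun w : W => fun j => (A w j : ZMod p)))
          ≤ LinearMap.ker φ := by
        rw [← hspan, Submodule.span_le]
        rintro _ ⟨k, rfl⟩
        exact congrFun h k
      exact h1 (Submodule.subset_span ⟨w, rfl⟩)
  have hBC : (B.map cc) * ((B * S).det : ℂ)⁻¹ • (S * (B * S).adjugate).map cc = 1 := by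
    rw [Matrix.mul_smul, ← Matrix.map_mul, ← Matrix.mul_assoc, Matrix.mul_adjugate]
    ext i j
    simp only [Matrix.smul_apply, Matrix.map_apply, Matrix.one_apply, smul_eq_mul]
    by_cases h : i = j
    · simp only [if_pos h, mul_one]
      exact inv_mul_cancel₀ hdet0
    · simp only [if_neg h, mul_zero, map_zero]
  have hkC : kr ℂ A = LinearMap.ker (B.map cc).mulVecLin := by
    have hle : kr ℂ A ≤ LinearMap.ker (B.map cc).mulVecLin := by
      intro d hd
      rw [LinearMap.mem_ker, Matrix.mulVecLin_apply]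
      funext k
      exact hd (a k)
    refine Submodule.eq_of_le_of_finrank_le hle ?_
    have e1 := finrank_ker _ _ hBC
    have e2 := finrank_ker _ _ hSp
    rw [hkp] at hdim
    omega
  choose av hav hac using hc
  have hbc : (B.map cc) *ᵥ c = τ • (fun k => av (a k)) := by
    funext k
    exact hac (a k)
  refine ⟨(((B * S).det : ℂ)⁻¹ • (S * (B * S).adjugate).map cc) *ᵥ (fun k => av (a k)), ?_, ?_⟩
  · intro j
    rw [Matrix.mulVec, dotProduct]
    refine sum_mem fun k _ => mul_mem ?_ (hav _)
    rw [Matrix.smul_apply, smul_eq_mul]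
    exact mul_mem (inv_mem hdet) (intCast_mem _ _)
  · have : (fun j => c j - τ * ((((B * S).det : ℂ)⁻¹ • (S * (B * S).adjugate).map cc) *ᵥ
        (fun k => av (a k))) j) ∈ kr ℂ A := by
      rw [hkC, LinearMap.mem_ker, Matrix.mulVecLin_apply]
      have e : (fun j => c j - τ * ((((B * S).det : ℂ)⁻¹ • (S * (B * S).adjugate).map cc) *ᵥ
        (fun k => av (a k))) j) = c - τ • ((((B * S).det : ℂ)⁻¹ • (S * (B * S).adjugate).map cc)
          *ᵥ (fun k => av (a k))) := rfl
      rw [e, Matrix.mulVec_sub, Matrix.mulVec_smul, hbc, Matrix.mulVec_mulVec, hBC,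
        Matrix.one_mulVec, sub_self]
    exact this

end Vale.Agent.P029.H140
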