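import Vale.Agent.P029.Bdl.B2
import Vale.Agent.P029.H140.LA
import Mathlib.Data.Nat.Prime.Factorial

/-!
# P029: an associator is not `p`-integral up to weight `p - 1`
-/

noncomputable section

attribute [local instance 100] LieRing.ofAssociativeRing

namespace Vale.Agent.P029.H140

open Vale.Agent.P029 Low Low.Linz Low.DegE Polynomial Vale.Agent.P029.Odd

/-! ### Homogeneity and commuting arguments -/

theorem ev_smul_wF {B : Type} [Ring B] [Algebra ℂ B] (r : ℂ) (a b : B) (l : List (Fin 2)) :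
    ev (r • a) (r • b) (wF ℂ l) = r ^ l.length • ev a b (wF ℂ l) := by
  induction l with
  | nil => rw [wF_nil, map_one, map_one, List.length_nil, pow_zero, one_smul]
  | cons i l ih =>
    have h : ev (r • a) (r • b) (FreeAlgebra.ι ℂ i) = r • ev a b (FreeAlgebra.ι ℂ i) := by
      rw [ev, ev, FreeAlgebra.lift_ι_apply, FreeAlgebra.lift_ι_apply]
      fin_cases i <;> rfl
    rw [wF_cons, map_mul, map_mul, ih, h, List.length_cons, smul_mul_smul_comm, pow_succ']

theorem ev_smul_hp {B : Type} [Ring B] [Algebra ℂ B] (r : ℂ) (a b : B) (k : ℕ) (P : FA ℂ) :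
    ev (r • a) (r • b) (hp k P) = r ^ k • ev a b (hp k P) := by
  induction P using word_induction with
  | hw l =>
    rw [hp_wF]
    by_cases h : l.length = k
    · rw [if_pos h, ev_smul_wF, h]
    · rw [if_neg h, map_zero, map_zero, smul_zero]
  | h0 => rw [hp_zero, map_zero, map_zero, smul_zero]
  | hadd P Q hP hQ => rw [hp_add, map_add, map_add, hP, hQ, smul_add]
  | hsmul c P hP => rw [hp_smul, map_smul, map_smul, hP, smul_comm]

theorem coeff_of_tp {B : Type} [Ring B] [Algebra ℂ B] {N : ℕ} {p q : Polynomial B}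
    (h : tp B N p = tp B N q) {k : ℕ} (hk : k ≤ N) : p.coeff k = q.coeff k := by
  have hk' : k < N + 1 := Nat.lt_succ_of_le hk
  have h1 : (tp B N p) 0 ⟨k, hk'⟩ = (tp B N q) 0 ⟨k, hk'⟩ := by rw [h]
  change (if (0 : Fin (N + 1)) ≤ ⟨k, hk'⟩ then p.coeff (k - 0) else 0)
    = (if (0 : Fin (N + 1)) ≤ ⟨k, hk'⟩ then q.coeff (k - 0) else 0) at h1
  rwa [if_pos (Fin.zero_le _), if_pos (Fin.zero_le _), Nat.sub_zero] at h1

theorem ev_comm {N : ℕ} {P : FA ℂ} (h : Assoc N P) (u v : ℂ) {k : ℕ} (hk : 1 ≤ k)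
    (hkN : k ≤ N) : ev u v (hp k P) = 0 := by
  induction k using Nat.strong_induction_on with
  | _ k ih =>
    rcases Nat.lt_or_ge k 2 with h2 | h2
    · have : k = 1 := by omega
      subst this
      rw [h.lin, map_zero]
    · have hn : KZ.NilS {mt N u, mt N v, mt N u, mt N v} N := by
        apply nil_mt
        intro x hx
        simp only [Set.mem_insert_iff, Set.mem_singleton_iff] at hx
        rcases hx with rfl | rfl | rfl | rfl
        exacts [⟨_, rfl⟩, ⟨_, rfl⟩, ⟨_, rfl⟩, ⟨_, rfl⟩]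
      have e1 := h.gl _ (mt N u) (mt N v) (mt N u) (mt N v) hn rfl (mt_comm N (mul_comm u v))
        (mt_comm N (mul_comm v u)) rfl
      rw [← mt_add, ← mt_add, ev_mt, ev_mt, ← map_mul] at e1
      have e2 := coeff_of_tp e1 hkN
      have e3 : u + u = (2 : ℂ) • u := by rw [smul_eq_mul]; ring
      have e4 : v + v = (2 : ℂ) • v := by rw [smul_eq_mul]; ring
      rw [pl_coeff, e3, e4, ev_smul_hp, Polynomial.coeff_mul] at e2
      have e5 : ∑ x ∈ Finset.HasAntidiagonal.antidiagonal k,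
          (pl u v P).coeff x.1 * (pl u v P).coeff x.2 = (2 : ℂ) • ev u v (hp k P) := by
        have e6 : ∀ x ∈ Finset.HasAntidiagonal.antidiagonal k,
            (pl u v P).coeff x.1 * (pl u v P).coeff x.2
              = ((if x = (0, k) then ev u v (hp k P) else 0)
                + (if x = (k, 0) then ev u v (hp k P) else 0)) := by
          rintro ⟨i, j⟩ hx
          rw [Finset.HasAntidiagonal.mem_antidiagonal] at hx
          simp only at hx
          simp only [Prod.mk.injEq, pl_coeff]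
          by_cases hi : i = 0
          · have hj : j = k := by omega
            subst hi
            subst hj
            rw [if_pos ⟨rfl, rfl⟩, if_neg (by omega), h.one, map_one, one_mul, add_zero]
          · by_cases hj : j = 0
            · have hi' : i = k := by omega
              subst hj
              subst hi'
              rw [if_neg (by omega), if_pos ⟨rfl, rfl⟩, h.one, map_one, mul_one, zero_add]
            · rw [if_neg (by omega), if_neg (by omega), ih i (by omega) (by omega) (by omega),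
                zero_mul, add_zero]
        rw [Finset.sum_congr rfl e6, Finset.sum_add_distrib, Finset.sum_ite_eq',
          Finset.sum_ite_eq', if_pos (by simp), if_pos (by simp), two_smul]
      rw [e5, ← sub_eq_zero, ← sub_smul, smul_eq_zero] at e2
      rcases e2 with e2 | e2
      · exfalso
        have e7 : ((2 ^ k : ℕ) : ℂ) = ((2 : ℕ) : ℂ) := by
          push_cast
          exact sub_eq_zero.1 e2
        have e8 : 2 ^ k = 2 := Nat.cast_injective e7
        have e9 : 2 ^ 2 ≤ 2 ^ k := Nat.pow_le_pow_right (by norm_num) h2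
        omega
      · exact e2

/-! ### Upper triangular matrices -/

/-- Complex two by two matrices. -/
abbrev M2 : Type := Matrix (Fin 2) (Fin 2) ℂ

theorem ev_ut {X Y : M2} (hX : X 1 0 = 0) (hY : Y 1 0 = 0) (Q : FA ℂ) :
    (ev X Y Q) 1 0 = 0 ∧ (ev X Y Q) 0 0 = ev (X 0 0) (Y 0 0) Q ∧
      (ev X Y Q) 1 1 = ev (X 1 1) (Y 1 1) Q := by
  induction Q using FreeAlgebra.induction with
  | grade0 r =>
    rw [AlgHom.commutes, AlgHom.commutes, AlgHom.commutes]
    refine ⟨?_, ?_, ?_⟩ <;> simp [Matrix.algebraMap_matrix_apply]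
  | grade1 i =>
    simp only [ev, FreeAlgebra.lift_ι_apply]
    fin_cases i
    · exact ⟨hX, rfl, rfl⟩
    · exact ⟨hY, rfl, rfl⟩
  | mul P Q hP hQ =>
    obtain ⟨p1, p2, p3⟩ := hP
    obtain ⟨q1, q2, q3⟩ := hQ
    simp only [map_mul, Matrix.mul_apply, Fin.sum_univ_two, p1, p2, p3, q1, q2, q3, mul_zero,
      zero_mul, add_zero, zero_add, and_self]
  | add P Q hP hQ =>
    obtain ⟨p1, p2, p3⟩ := hP
    obtain ⟨q1, q2, q3⟩ := hQ
    simp only [map_add, Matrix.add_apply, p1, p2, p3, q1, q2, q3, add_zero, and_self]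

/-- `ℂ[t]/(t^(N+1))`. -/
abbrev QN (N : ℕ) : Type := ℂ[X] ⧸ Ideal.span {(X : ℂ[X]) ^ (N + 1)}

/-- Reduction modulo `t^(N+1)`. -/
def qN (N : ℕ) : ℂ[X] →+* QN N := Ideal.Quotient.mk _

theorem qN_eq {N : ℕ} {p q : ℂ[X]} : qN N p = qN N q ↔ ∀ k, k ≤ N → p.coeff k = q.coeff k := by
  rw [qN, Ideal.Quotient.eq, Ideal.mem_span_singleton, X_pow_dvd_iff]
  constructor
  · intro h k hk
    have := h k (by omega)
    rwa [coeff_sub, sub_eq_zero] at this
  · intro h k hk
    rw [coeff_sub, sub_eq_zero]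
    exact h k (by omega)

/-- Polynomials with matrix coefficients as matrices over `ℂ[t]/(t^(N+1))`. -/
def ps (N : ℕ) : Polynomial M2 →+* Matrix (Fin 2) (Fin 2) (QN N) :=
  (qN N).mapMatrix.comp (matPolyEquiv.symm : Polynomial M2 ≃ₐ[ℂ] _).toRingEquiv.toRingHom

theorem ps_apply (N : ℕ) (p : Polynomial M2) (i j : Fin 2) :
    ps N p i j = qN N (matPolyEquiv.symm p i j) := rfl

theorem ps_eq {N : ℕ} {p q : Polynomial M2} (h : tp M2 N p = tp M2 N q) : ps N p = ps N q := by
  ext i j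
  rw [ps_apply, ps_apply, qN_eq]
  intro k hk
  rw [matPolyEquiv_symm_apply_coeff, matPolyEquiv_symm_apply_coeff, coeff_of_tp h hk]

theorem ps_entry {N : ℕ} {p : Polynomial M2} {i j : Fin 2} {q : ℂ[X]}
    (h : ∀ k, k ≤ N → (p.coeff k) i j = q.coeff k) : ps N p i j = qN N q := by
  rw [ps_apply, qN_eq]
  intro k hk
  rw [matPolyEquiv_symm_apply_coeff, h k hk]

/-- The coefficients of the truncated exponential. -/
theorem ex_coeff {B : Type} [Ring B] [Algebra ℂ B] (N : ℕ) (c : ℂ) (a : B) {k : ℕ} (hk : k ≤ N) :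
    (ex N c a).coeff k = (c ^ k / (k.factorial : ℂ)) • a ^ k := by
  rw [ex, KZ.expT, Polynomial.finsetSum_coeff, Finset.sum_eq_single k]
  · have e : (C a * X : Polynomial B) ^ k = C (a ^ k) * X ^ k := by
      rw [(Polynomial.commute_X (C a)).symm.mul_pow, C_pow]
    rw [Polynomial.coeff_smul, e, coeff_C_mul, coeff_X_pow, if_pos rfl, mul_one]
  · intro l _ hl
    have e : (C a * X : Polynomial B) ^ l = C (a ^ l) * X ^ l := by
      rw [(Polynomial.commute_X (C a)).symm.mul_pow, C_pow]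
    rw [Polynomial.coeff_smul, e, coeff_C_mul, coeff_X_pow, if_neg (Ne.symm hl), mul_zero,
      smul_zero]
  · intro h
    exact absurd (Finset.mem_range.2 (by omega)) h

/-- The scalar truncated exponential series. -/
def E (N : ℕ) (c : ℂ) : ℂ[X] := ex N c (1 : ℂ)

theorem E_coeff {N : ℕ} (c : ℂ) {k : ℕ} (hk : k ≤ N) :
    (E N c).coeff k = c ^ k / (k.factorial : ℂ) := by
  rw [E, ex_coeff N c 1 hk, one_pow, smul_eq_mul, mul_one]

/-- The letter `x ↦ E₁₁`. -/
def a0 : M2 := !![1, 0; 0, 0]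

/-- The letter `y ↦ E₁₂`. -/
def b0 : M2 := !![0, 1; 0, 0]

/-- `- x - y`. -/
def c0 : M2 := !![-1, -1; 0, 0]

theorem a0_pow {k : ℕ} (hk : 1 ≤ k) : a0 ^ k = a0 := by
  induction k, hk using Nat.le_induction with
  | base => rw [pow_one]
  | succ n hn ih =>
    rw [pow_succ, ih, a0, Matrix.mul_fin_two]
    simp

theorem c0_pow {k : ℕ} (hk : 1 ≤ k) : c0 ^ k = (-1 : ℂ) ^ (k + 1) • c0 := by
  induction k, hk using Nat.le_induction with
  | base => rw [pow_one]; norm_num
  | succ n hn ih =>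
    have h : c0 * c0 = (-1 : ℂ) • c0 := by
      rw [c0, Matrix.mul_fin_two]
      ext i j
      fin_cases i <;> fin_cases j <;> simp
    rw [pow_succ, ih, Matrix.smul_mul, h, smul_smul, pow_succ (-1 : ℂ) (n + 1)]

theorem b0_sq : b0 * b0 = 0 := by
  rw [b0, Matrix.mul_fin_two]
  ext i j
  fin_cases i <;> fin_cases j <;> simp

/-! ### The hexagon in two by two matrices -/

/-- The off-diagonal entry of `P(X t, Y t)`. -/
def off (U V : M2) (P : FA ℂ) : ℂ[X] := matPolyEquiv.symm (pl U V P) 0 1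

theorem off_coeff (U V : M2) (P : FA ℂ) (k : ℕ) :
    (off U V P).coeff k = (ev U V (hp k P)) 0 1 := by
  rw [off, matPolyEquiv_symm_apply_coeff, pl_coeff]

theorem ps_pl {N : ℕ} {P : FA ℂ} (h : Assoc N P) {U V : M2} (hU : U 1 0 = 0) (hV : V 1 0 = 0) :
    ps N (pl U V P) = !![1, qN N (off U V P); 0, 1] := by
  have e0 : ∀ u v : ℂ, ∀ k, k ≤ N → ev u v (hp k P) = (1 : ℂ[X]).coeff k := by
    intro u v k hk
    rw [coeff_one]
    by_cases h0 : k = 0
    · rw [if_pos h0, h0, h.one, map_one]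
    · rw [if_neg h0, ev_comm h u v (by omega) hk]
  have e1 : ps N (pl U V P) 0 0 = qN N 1 := ps_entry fun k hk => by
    rw [pl_coeff, (ev_ut hU hV _).2.1, e0 _ _ k hk]
  have e2 : ps N (pl U V P) 1 1 = qN N 1 := ps_entry fun k hk => by
    rw [pl_coeff, (ev_ut hU hV _).2.2, e0 _ _ k hk]
  have e3 : ps N (pl U V P) 1 0 = qN N 0 := ps_entry fun k hk => by
    rw [pl_coeff, (ev_ut hU hV _).1, coeff_zero]
  ext i j
  fin_cases i <;> fin_cases j
  · exact e1.trans (map_one _)
  · rfl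
  · exact e3.trans (map_zero _)
  · exact e2.trans (map_one _)

theorem ps_ex_a {N : ℕ} (u : ℂ) : ps N (ex N u a0) = !![qN N (E N u), 0; 0, 1] := by
  have hc : ∀ k, k ≤ N → (ex N u a0).coeff k
      = (u ^ k / (k.factorial : ℂ)) • (if k = 0 then (1 : M2) else a0) := by
    intro k hk
    rw [ex_coeff N u a0 hk]
    by_cases h0 : k = 0
    · rw [if_pos h0, h0, pow_zero a0]
    · rw [if_neg h0, a0_pow (by omega)]
  have e1 : ps N (ex N u a0) 0 0 = qN N (E N u) := ps_entry fun k hk => by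
    rw [hc k hk, E_coeff u hk, Matrix.smul_apply]
    by_cases h0 : k = 0
    · rw [if_pos h0]; simp
    · rw [if_neg h0]; simp [a0]
  have e2 : ps N (ex N u a0) 0 1 = qN N 0 := ps_entry fun k hk => by
    rw [hc k hk, coeff_zero, Matrix.smul_apply]
    by_cases h0 : k = 0
    · rw [if_pos h0]; simp
    · rw [if_neg h0]; simp [a0]
  have e3 : ps N (ex N u a0) 1 0 = qN N 0 := ps_entry fun k hk => by
    rw [hc k hk, coeff_zero, Matrix.smul_apply]
    by_cases h0 : k = 0
    · rw [if_pos h0]; simp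
    · rw [if_neg h0]; simp [a0]
  have e4 : ps N (ex N u a0) 1 1 = qN N 1 := ps_entry fun k hk => by
    rw [hc k hk, coeff_one, Matrix.smul_apply]
    by_cases h0 : k = 0
    · rw [if_pos h0, if_pos h0, h0]; simp
    · rw [if_neg h0, if_neg h0]; simp [a0]
  ext i j
  fin_cases i <;> fin_cases j
  · exact e1
  · exact e2.trans (map_zero _)
  · exact e3.trans (map_zero _)
  · exact e4.trans (map_one _)

theorem ps_ex_c {N : ℕ} (u : ℂ) :
    ps N (ex N u c0) = !![qN N (E N (-u)), qN N (E N (-u)) - 1; 0, 1] := by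
  have hc : ∀ k, k ≤ N → (ex N u c0).coeff k
      = (u ^ k / (k.factorial : ℂ)) • (if k = 0 then (1 : M2) else (-1 : ℂ) ^ (k + 1) • c0) := by
    intro k hk
    rw [ex_coeff N u c0 hk]
    by_cases h0 : k = 0
    · rw [if_pos h0, h0, pow_zero c0]
    · rw [if_neg h0, c0_pow (by omega)]
  have hs : ∀ k : ℕ, u ^ k / (k.factorial : ℂ) * ((-1 : ℂ) ^ (k + 1) * (-1))
      = (-u) ^ k / (k.factorial : ℂ) := by
    intro k
    rw [neg_pow u k, pow_succ]
    ring
  have e1 : ps N (ex N u c0) 0 0 = qN N (E N (-u)) := ps_entry fun k hk => by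
    rw [hc k hk, E_coeff (-u) hk, Matrix.smul_apply]
    by_cases h0 : k = 0
    · rw [if_pos h0, h0]; simp
    · rw [if_neg h0, Matrix.smul_apply, smul_eq_mul, smul_eq_mul, ← hs k]
      rfl
  have e2 : ps N (ex N u c0) 0 1 = qN N (E N (-u) - 1) := ps_entry fun k hk => by
    rw [hc k hk, coeff_sub, E_coeff (-u) hk, coeff_one, Matrix.smul_apply]
    by_cases h0 : k = 0
    · rw [if_pos h0, if_pos h0, h0]; simp
    · rw [if_neg h0, if_neg h0, Matrix.smul_apply, smul_eq_mul, smul_eq_mul, ← hs k, sub_zero]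
      rfl
  have e3 : ps N (ex N u c0) 1 0 = qN N 0 := ps_entry fun k hk => by
    rw [hc k hk, coeff_zero, Matrix.smul_apply]
    by_cases h0 : k = 0
    · rw [if_pos h0]; simp
    · rw [if_neg h0]; simp [c0]
  have e4 : ps N (ex N u c0) 1 1 = qN N 1 := ps_entry fun k hk => by
    rw [hc k hk, coeff_one, Matrix.smul_apply]
    by_cases h0 : k = 0
    · rw [if_pos h0, if_pos h0, h0]; simp
    · rw [if_neg h0, if_neg h0]; simp [c0]
  ext i j
  fin_cases i <;> fin_cases j
  · exact e1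
  · exact e2.trans (by rw [map_sub, map_one]; rfl)
  · exact e3.trans (map_zero _)
  · exact e4.trans (map_one _)

theorem ps_ex_b {N : ℕ} (u : ℂ) : ps N (ex N u b0) = !![1, qN N (C u * X); 0, 1] := by
  have hc : ∀ k, k ≤ N → (ex N u b0).coeff k
      = if k = 0 then (1 : M2) else if k = 1 then u • b0 else 0 := by
    intro k hk
    rw [ex_coeff N u b0 hk]
    by_cases h0 : k = 0
    · rw [if_pos h0, h0]; simp
    · rw [if_neg h0]
      by_cases h1 : k = 1
      · rw [if_pos h1, h1]; simp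
      · obtain ⟨l, rfl⟩ : ∃ l, k = l + 2 := ⟨k - 2, by omega⟩
        rw [if_neg h1, pow_add b0 l 2, pow_two b0, b0_sq, mul_zero, smul_zero]
  have e1 : ps N (ex N u b0) 0 0 = qN N 1 := ps_entry fun k hk => by
    rw [hc k hk, coeff_one]
    by_cases h0 : k = 0
    · rw [if_pos h0, if_pos h0]; simp
    · rw [if_neg h0, if_neg h0]
      by_cases h1 : k = 1
      · rw [if_pos h1]; simp [b0]
      · rw [if_neg h1]; rfl
  have e2 : ps N (ex N u b0) 0 1 = qN N (C u * X) := ps_entry fun k hk => by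
    rw [hc k hk, coeff_C_mul, coeff_X]
    by_cases h0 : k = 0
    · rw [if_pos h0, h0]; simp
    · rw [if_neg h0]
      by_cases h1 : k = 1
      · rw [if_pos h1, h1]; simp [b0]
      · rw [if_neg h1, if_neg (Ne.symm h1), mul_zero]; rfl
  have e3 : ps N (ex N u b0) 1 0 = qN N 0 := ps_entry fun k hk => by
    rw [hc k hk, coeff_zero]
    by_cases h0 : k = 0
    · rw [if_pos h0]; simp
    · rw [if_neg h0]
      by_cases h1 : k = 1
      · rw [if_pos h1]; simp [b0]
      · rw [if_neg h1]; rfl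
  have e4 : ps N (ex N u b0) 1 1 = qN N 1 := ps_entry fun k hk => by
    rw [hc k hk, coeff_one]
    by_cases h0 : k = 0
    · rw [if_pos h0, if_pos h0]; simp
    · rw [if_neg h0, if_neg h0]
      by_cases h1 : k = 1
      · rw [if_pos h1]; simp [b0]
      · rw [if_neg h1]; rfl
  ext i j
  fin_cases i <;> fin_cases j
  · exact e1.trans (map_one _)
  · exact e2
  · exact e3.trans (map_zero _)
  · exact e4.trans (map_one _)

/-- The hexagon for `E₁₁ t`, `E₁₂ t`. -/
theorem hex_mat {N : ℕ} {P : FA ℂ} (h : Assoc N P) {s : ℂ} (hs : s = 1 ∨ s = -1) :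
    qN N (E N (s * Complex.I * Real.pi)) * qN N (E N (-(s * Complex.I * Real.pi))) = 1 ∧
    qN N (E N (s * Complex.I * Real.pi)) * qN N (off c0 a0 P)
      + qN N (E N (s * Complex.I * Real.pi)) * (qN N (E N (-(s * Complex.I * Real.pi))) - 1)
      + qN N (E N (s * Complex.I * Real.pi)) * qN N (E N (-(s * Complex.I * Real.pi)))
        * (qN N (off b0 c0 P) + qN N (C (s * Complex.I * Real.pi) * X) + qN N (off a0 b0 P))
      = 0 := by
  have hn : KZ.NilS {mt N a0, mt N b0} N := by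
    apply nil_mt
    intro x hx
    simp only [Set.mem_insert_iff, Set.mem_singleton_iff] at hx
    rcases hx with rfl | rfl
    exacts [⟨_, rfl⟩, ⟨_, rfl⟩]
  have h0 : a0 + b0 + c0 = 0 := by
    ext i j
    fin_cases i <;> fin_cases j <;> simp [a0, b0, c0]
  have h0' : mt N a0 + mt N b0 + mt N c0 = 0 := by
    rw [← mt_add, ← mt_add, h0, mt_zero]
  have e1 := h.hex _ (mt N a0) (mt N b0) (mt N c0) hn h0' s hs
  rw [ev_mt, ev_mt, ev_mt, exp_mt, exp_mt, exp_mt, ← map_mul, ← map_mul, ← map_mul, ← map_mul,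
    ← map_mul, ← map_one (tp M2 N)] at e1
  have e2 := ps_eq e1
  have ua : a0 1 0 = 0 := rfl
  have ub : b0 1 0 = 0 := rfl
  have uc : c0 1 0 = 0 := rfl
  rw [map_mul, map_mul, map_mul, map_mul, map_mul, map_one, ps_pl h uc ua, ps_pl h ub uc,
    ps_pl h ua ub, ps_ex_a, ps_ex_b, ps_ex_c, Matrix.mul_fin_two, Matrix.mul_fin_two,
    Matrix.mul_fin_two, Matrix.mul_fin_two, Matrix.mul_fin_two, Matrix.one_fin_two] at e2
  have e3 := congrFun (congrFun e2 0) 0
  have e4 := congrFun (congrFun e2 0) 1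
  simp only [Matrix.of_apply, Matrix.cons_val', Matrix.cons_val_zero, Matrix.cons_val_one,
    Matrix.cons_val_fin_one, mul_one, mul_zero, add_zero, zero_mul, zero_add] at e3 e4
  refine ⟨e3, ?_⟩
  linear_combination e4

/-! ### Integrality -/

/-- The complex numbers `(2 π i)^k a` with `a` rational and `p`-integral. -/
def TZ (p : ℕ) [Fact p.Prime] (k : ℕ) : AddSubgroup ℂ :=
  (ZP p).toAddSubgroup.map (AddMonoidHom.mulLeft (tau ^ k))

section
variable {p : ℕ} [Fact p.Prime]

theorem mem_TZ {k : ℕ} {z : ℂ} :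
    z ∈ TZ p k ↔ ∃ a ∈ ZP p, tau ^ k * a = z := by
  rw [TZ, AddSubgroup.mem_map]
  rfl

theorem mul_mem_TZ {i j : ℕ} {z w : ℂ} (hz : z ∈ TZ p i) (hw : w ∈ TZ p j) :
    z * w ∈ TZ p (i + j) := by
  obtain ⟨a, ha, rfl⟩ := mem_TZ.1 hz
  obtain ⟨b, hb, rfl⟩ := mem_TZ.1 hw
  exact mem_TZ.2 ⟨a * b, mul_mem ha hb, by rw [pow_add]; ring⟩

theorem ev_int {U V : M2} (hU : ∀ i j, U i j ∈ ZP p) (hV : ∀ i j, V i j ∈ ZP p) {c : FA ℂ}
    (hc : c ∈ FZ p) : ∀ i j, (ev U V c) i j ∈ ZP p := by
  induction hc using Subring.closure_induction with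
  | mem z hz =>
    rcases hz with ⟨i, rfl⟩ | ⟨a, ha, rfl⟩
    · rw [ev, FreeAlgebra.lift_ι_apply]
      fin_cases i
      · exact hU
      · exact hV
    · intro i j
      rw [AlgHom.commutes, Matrix.algebraMap_matrix_apply]
      split_ifs
      · exact ha
      · exact zero_mem _
  | zero => intro i j; rw [map_zero]; exact zero_mem _
  | one =>
    intro i j
    rw [map_one, Matrix.one_apply]
    split_ifs
    · exact one_mem _
    · exact zero_mem _
  | add a b _ _ ha hb => intro i j; rw [map_add]; exact add_mem (ha i j) (hb i j)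
  | neg a _ ha => intro i j; rw [map_neg]; exact neg_mem (ha i j)
  | mul a b _ _ ha hb =>
    intro i j
    rw [map_mul, Matrix.mul_apply]
    exact sum_mem fun k _ => mul_mem (ha i k) (hb k j)

theorem not_dvd_aux (hp2 : p ≠ 2) {i j : ℕ} (hj : j < p) :
    ¬ (p : ℤ) ∣ ((2 ^ i * j.factorial : ℕ) : ℤ) := by
  have hp : p.Prime := Fact.out
  rw [Int.natCast_dvd_natCast]
  intro h
  rcases hp.dvd_mul.1 h with h | h
  · exact hp2 ((Nat.prime_dvd_prime_iff_eq hp Nat.prime_two).1 (hp.dvd_of_dvd_pow h))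
  · have := (hp.dvd_factorial).1 h
    omega

theorem hex_contra (hp2 : p ≠ 2) {P : FA ℂ} (hP : Assoc p P)
    (h : ∀ k, k ≤ p - 1 → ∃ c ∈ FZ p, hp k P = tau ^ k • c) :
    False := by
  have hpp : p.Prime := Fact.out
  have hp3 : 3 ≤ p := by
    have := hpp.two_le
    omega
  have hodd : Odd p := hpp.odd_of_ne_two hp2
  -- the polynomial identity
  obtain ⟨w, hw⟩ : ∃ w : ℂ, w = 1 * Complex.I * Real.pi := ⟨_, rfl⟩
  have hw' : -1 * Complex.I * Real.pi = -w := by rw [hw]; ring
  obtain ⟨h1, h2⟩ := hex_mat hP (s := 1) (Or.inl rfl)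
  obtain ⟨-, h4⟩ := hex_mat hP (s := -1) (Or.inr rfl)
  rw [← hw] at h1 h2
  rw [hw', neg_neg] at h4
  have hX : qN p (C (-w) * X) = - qN p (C w * X) := by
    rw [C_neg, neg_mul, map_neg]
  rw [hX] at h4
  have key : qN p ((E p w - E p (-w)) * (1 + off b0 c0 P + off a0 b0 P))
      = qN p (C w * X * (E p w + E p (-w))) := by
    rw [map_mul, map_mul, map_add, map_add, map_sub, map_add, map_one]
    linear_combination (qN p (E p w)) * h4 - (qN p (E p (-w))) * h2
      - ((qN p (E p w) - qN p (E p (-w))) * (1 + qN p (off b0 c0 P) + qN p (off a0 b0 P))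
        - qN p (C w * X) * (qN p (E p w) + qN p (E p (-w)))) * h1
  have hcoef := (qN_eq.1 key) p le_rfl
  have htau : tau = 2 * w := by rw [hw, tau]; ring
  have hw0 : w ≠ 0 := by
    rw [hw]
    simp [Real.pi_ne_zero]
  -- integrality of the factors
  have hfac : ∀ i j : ℕ, j < p → (((2 ^ i * j.factorial : ℕ) : ℂ))⁻¹ ∈ ZP p := by
    intro i j hj
    have := inv_mem (not_dvd_aux (p := p) hp2 (i := i) hj)
    rwa [Int.cast_natCast] at this
  have hA : ∀ i, i < p → (E p w - E p (-w)).coeff i ∈ TZ p i := by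
    intro i hi
    refine mem_TZ.2 ⟨(1 - (-1) ^ i) * (((2 ^ i * i.factorial : ℕ) : ℂ))⁻¹,
      mul_mem (sub_mem (one_mem _) (pow_mem (neg_mem (one_mem _)) _)) (hfac i i hi), ?_⟩
    rw [coeff_sub, E_coeff w hi.le, E_coeff (-w) hi.le, htau, neg_pow w i, mul_pow]
    have hf : ((i.factorial : ℕ) : ℂ) ≠ 0 := Nat.cast_ne_zero.2 (Nat.factorial_ne_zero i)
    push_cast
    field_simp
  have hS : ∀ j, j ≤ p - 1 → (1 + off b0 c0 P + off a0 b0 P).coeff j ∈ TZ p j := by
    intro j hj
    obtain ⟨c, hc, hjc⟩ := h j hj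
    have hoff : ∀ U V : M2, (∀ i j, U i j ∈ ZP p) → (∀ i j, V i j ∈ ZP p) →
        (off U V P).coeff j ∈ TZ p j := by
      intro U V hU hV
      rw [off_coeff, hjc, map_smul]
      exact mem_TZ.2 ⟨_, ev_int hU hV hc 0 1, rfl⟩
    have ia : ∀ i j, a0 i j ∈ ZP p := by
      intro i j
      fin_cases i <;> fin_cases j
      exacts [one_mem _, zero_mem _, zero_mem _, zero_mem _]
    have ib : ∀ i j, b0 i j ∈ ZP p := by
      intro i j
      fin_cases i <;> fin_cases j
      exacts [zero_mem _, one_mem _, zero_mem _, zero_mem _]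
    have ic : ∀ i j, c0 i j ∈ ZP p := by
      intro i j
      fin_cases i <;> fin_cases j
      exacts [neg_mem (one_mem _), neg_mem (one_mem _), zero_mem _, zero_mem _]
    rw [coeff_add, coeff_add]
    refine add_mem (add_mem ?_ (hoff _ _ ib ic)) (hoff _ _ ia ib)
    rw [coeff_one]
    by_cases h0 : j = 0
    · rw [if_pos h0, h0]
      exact mem_TZ.2 ⟨1, one_mem _, by rw [pow_zero, one_mul]⟩
    · rw [if_neg h0]
      exact zero_mem _
  have hS0 : (1 + off b0 c0 P + off a0 b0 P).coeff 0 = 1 := by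
    rw [coeff_add, coeff_add, off_coeff, off_coeff, hP.one, map_one, map_one, coeff_one]
    simp
  have hC : (C w * X * (E p w + E p (-w))).coeff p ∈ TZ p p := by
    obtain ⟨m, hm⟩ : ∃ m, p = m + 1 := ⟨p - 1, by omega⟩
    refine mem_TZ.2 ⟨(1 + (-1) ^ m) * (((2 ^ p * m.factorial : ℕ) : ℂ))⁻¹,
      mul_mem (add_mem (one_mem _) (pow_mem (neg_mem (one_mem _)) _))
        (hfac p m (by omega)), ?_⟩
    have e1 : (C w * X * (E p w + E p (-w))).coeff p
        = w * ((E p w).coeff m + (E p (-w)).coeff m) := by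
      have e0 : ∀ q : ℂ[X], (X * q).coeff p = q.coeff m := by
        intro q
        have e2 := coeff_X_mul q m
        rwa [← hm] at e2
      rw [mul_assoc, coeff_C_mul, e0, coeff_add]
    rw [e1, E_coeff w (by omega), E_coeff (-w) (by omega), htau, neg_pow w m, mul_pow]
    have hf : ((m.factorial : ℕ) : ℂ) ≠ 0 := Nat.cast_ne_zero.2 (Nat.factorial_ne_zero m)
    have hwp : w ^ p = w ^ m * w := by rw [hm, pow_succ]
    rw [hwp]
    push_cast
    field_simp
  -- the coefficient of `t^p`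
  rw [Polynomial.coeff_mul, ← Finset.add_sum_erase _ _
    (show (p, 0) ∈ Finset.HasAntidiagonal.antidiagonal p by simp)] at hcoef
  have hrest : ∑ x ∈ (Finset.HasAntidiagonal.antidiagonal p).erase (p, 0),
      (E p w - E p (-w)).coeff x.1 * (1 + off b0 c0 P + off a0 b0 P).coeff x.2 ∈ TZ p p := by
    refine sum_mem fun x hx => ?_
    obtain ⟨i, j⟩ := x
    rw [Finset.mem_erase, Finset.HasAntidiagonal.mem_antidiagonal] at hx
    obtain ⟨hne, hij⟩ := hx
    simp only at hij
    have hj0 : j ≠ 0 := by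
      rintro rfl
      exact hne (by rw [← hij, add_zero])
    by_cases hi0 : i = 0
    · have : (E p w - E p (-w)).coeff i = 0 := by
        rw [hi0, coeff_sub, E_coeff w (Nat.zero_le _), E_coeff (-w) (Nat.zero_le _)]
        simp
      simp only
      rw [this, zero_mul]
      exact zero_mem _
    · have := mul_mem_TZ (hA i (by omega)) (hS j (by omega))
      rwa [hij] at this
  have htop : (E p w - E p (-w)).coeff p ∈ TZ p p := by
    have : (E p w - E p (-w)).coeff p = (C w * X * (E p w + E p (-w))).coeff p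
        - ∑ x ∈ (Finset.HasAntidiagonal.antidiagonal p).erase (p, 0),
          (E p w - E p (-w)).coeff x.1 * (1 + off b0 c0 P + off a0 b0 P).coeff x.2 := by
      rw [← hcoef, hS0, mul_one, add_sub_cancel_right]
    rw [this]
    exact sub_mem hC hrest
  obtain ⟨a, ⟨m, d, hd, hmd⟩, ha⟩ := mem_TZ.1 htop
  rw [coeff_sub, E_coeff w le_rfl, E_coeff (-w) le_rfl, htau, hodd.neg_pow, mul_pow] at ha
  have hf : ((p.factorial : ℕ) : ℂ) ≠ 0 := Nat.cast_ne_zero.2 (Nat.factorial_ne_zero p)
  have hwp : w ^ p ≠ 0 := pow_ne_zero _ hw0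
  have ha' : a * (2 ^ p * (p.factorial : ℂ)) = 2 := by
    have e : w ^ p * (a * (2 ^ p * (p.factorial : ℂ))) = w ^ p * 2 := by
      field_simp at ha
      linear_combination w ^ p * ha
    exact mul_left_cancel₀ hwp e
  have hint : (2 * d : ℤ) = m * (2 ^ p * p.factorial) := by
    have : ((2 * d : ℤ) : ℂ) = ((m * (2 ^ p * p.factorial) : ℤ) : ℂ) := by
      push_cast
      rw [← hmd]
      linear_combination (-(d : ℂ)) * ha'
    exact_mod_cast this
  have hdvd : (p : ℤ) ∣ 2 * d := by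
    rw [hint]
    refine dvd_mul_of_dvd_right (dvd_mul_of_dvd_right ?_ _) _
    exact Int.natCast_dvd_natCast.2 (hpp.dvd_factorial.2 le_rfl)
  rcases (Nat.prime_iff_prime_int.1 hpp).dvd_or_dvd hdvd with h5 | h5
  · have h6 : p ∣ 2 := by exact_mod_cast h5
    exact hp2 ((Nat.prime_dvd_prime_iff_eq hpp Nat.prime_two).1 h6)
  · exact hd h5

end

end Vale.Agent.P029.H140
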