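import Vale.Agent.P029.H140.LA

/-!
# P029: the rank of an integral matrix over a field of characteristic `p`
-/

noncomputable section

namespace Vale.Agent.P029.H140

open Matrix Vale.Agent.P029.Odd

theorem kr_finrank {p : ℕ} [Fact p.Prime] (K : Type) [Field K] [CharP K p] {W ι : Type}
    [Fintype ι] (A : W → ι → ℤ) :
    Module.finrank K (kr K A) = Module.finrank (ZMod p) (kr (ZMod p) A) := by
  classical
  obtain ⟨κ, a, -, hspan, hli⟩ :=
    exists_linearIndependent' (ZMod p) (fun w : W => fun j => (A w j : ZMod p))
  have : Finite κ := hli.finite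
  let _ : Fintype κ := Fintype.ofFinite κ
  let B : Matrix κ ι ℤ := Matrix.of fun k j => A (a k) j
  let cp : ℤ →+* ZMod p := Int.castRingHom (ZMod p)
  let cK : ℤ →+* K := Int.castRingHom K
  let u : ZMod p →+* K := ZMod.castHom dvd_rfl K
  have hu : ∀ z : ℤ, u (z : ZMod p) = (z : K) := fun z => map_intCast u z
  have hliB : LinearIndependent (ZMod p) (fun k => (B.map cp) k) := hli
  obtain ⟨Sp, hSp⟩ := exists_right_inv (B.map cp) hliB
  have hBK : (B.map cK) * (Sp.map u) = 1 := by
    have h1 : (B.map cp).map u = B.map cK := by
      ext k j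
      exact hu _
    rw [← h1, ← Matrix.map_mul, hSp]
    ext k l
    rw [Matrix.map_apply, Matrix.one_apply, Matrix.one_apply]
    split_ifs
    · exact map_one u
    · exact map_zero u
  have hkp : kr (ZMod p) A = LinearMap.ker (B.map cp).mulVecLin := by
    ext d
    rw [mem_kr, LinearMap.mem_ker, Matrix.mulVecLin_apply]
    constructor
    · intro h
      funext k
      exact h (a k)
    · intro h w
      have hw : (fun j => (A w j : ZMod p)) ∈ Submodule.span (ZMod p)
          (Set.range ((fun w : W => fun j => (A w j : ZMod p)) ∘ a)) := by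
        rw [hspan]
        exact Submodule.subset_span ⟨w, rfl⟩
      obtain ⟨c, hc⟩ := (Submodule.mem_span_range_iff_exists_fun (ZMod p)).1 hw
      have hj : ∀ j, (A w j : ZMod p) = ∑ k, c k * (A (a k) j : ZMod p) := by
        intro j
        have := congrFun hc j
        rw [Finset.sum_apply] at this
        exact this.symm
      have h2 : ∀ k, ∑ j, (A (a k) j : ZMod p) * d j = 0 := fun k => congrFun h k
      simp only [hj, Finset.sum_mul]
      rw [Finset.sum_comm]
      refine Finset.sum_eq_zero fun k _ => ?_
      simp only [mul_assoc]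
      rw [← Finset.mul_sum, h2 k, mul_zero]
  have hkK : kr K A = LinearMap.ker (B.map cK).mulVecLin := by
    ext d
    rw [mem_kr, LinearMap.mem_ker, Matrix.mulVecLin_apply]
    constructor
    · intro h
      funext k
      exact h (a k)
    · intro h w
      have hw : (fun j => (A w j : ZMod p)) ∈ Submodule.span (ZMod p)
          (Set.range ((fun w : W => fun j => (A w j : ZMod p)) ∘ a)) := by
        rw [hspan]
        exact Submodule.subset_span ⟨w, rfl⟩
      obtain ⟨c, hc⟩ := (Submodule.mem_span_range_iff_exists_fun (ZMod p)).1 hw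
      have hj : ∀ j, (A w j : K) = ∑ k, u (c k) * (A (a k) j : K) := by
        intro j
        have h1 := congrFun hc j
        rw [Finset.sum_apply] at h1
        have h2 : u (∑ k, c k * (A (a k) j : ZMod p)) = u (A w j : ZMod p) := congrArg u h1
        rw [map_sum, hu] at h2
        rw [← h2]
        refine Finset.sum_congr rfl fun k _ => ?_
        rw [map_mul, hu]
      have h2 : ∀ k, ∑ j, (A (a k) j : K) * d j = 0 := fun k => congrFun h k
      simp only [hj, Finset.sum_mul]
      rw [Finset.sum_comm]
      refine Finset.sum_eq_zero fun k _ => ?_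
      simp only [mul_assoc]
      rw [← Finset.mul_sum, h2 k, mul_zero]
  have e1 := finrank_ker _ _ hBK
  have e2 := finrank_ker _ _ hSp
  rw [hkK, hkp]
  omega

end Vale.Agent.P029.H140
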