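import Vale.Agent.P029.H140.LA2

/-!
# P029: integral linear systems over rings with `p`-torsion
-/

noncomputable section

namespace Vale.Agent.P029.H140

open Matrix Vale.Agent.P029.Odd

/-- The lattice of integral solutions has an integral complement. -/
theorem exists_split {W ι : Type} [Fintype ι] [DecidableEq ι] (A : W → ι → ℤ) :
    ∃ (m : ℕ) (w : Matrix ι (Fin m) ℤ) (l : Matrix (Fin m) ι ℤ), l * w = 1 ∧
      (∀ r k, ∑ j, A r j * w j k = 0) ∧
      ∀ c : ι → ℤ, (∀ r, ∑ j, A r j * c j = 0) → w *ᵥ (l *ᵥ c) = c := by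
  let T : (ι → ℤ) →ₗ[ℤ] (W → ℤ) :=
    { toFun := fun c r => ∑ j, A r j * c j
      map_add' := by
        intro c d
        funext r
        simp only [Pi.add_apply, mul_add, Finset.sum_add_distrib]
      map_smul' := by
        intro z c
        funext r
        simp only [Pi.smul_apply, smul_eq_mul, RingHom.id_apply, Finset.mul_sum]
        exact Finset.sum_congr rfl fun j _ => by ring }
  have hT : ∀ c r, T c r = ∑ j, A r j * c j := fun _ _ => rfl
  obtain ⟨s, hs⟩ := Module.projective_lifting_property T.rangeRestrict LinearMap.id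
    T.surjective_rangeRestrict
  have hs' : ∀ y, T.rangeRestrict (s y) = y := fun y => LinearMap.congr_fun hs y
  let ρ : (ι → ℤ) →ₗ[ℤ] (ι → ℤ) := LinearMap.id - s.comp T.rangeRestrict
  have hρ : ∀ x, ρ x ∈ LinearMap.ker T := by
    intro x
    rw [LinearMap.mem_ker]
    have h1 := congrArg Subtype.val (hs' (T.rangeRestrict x))
    change T (s (T.rangeRestrict x)) = T x at h1
    change T (x - s (T.rangeRestrict x)) = 0
    rw [map_sub, h1, sub_self]
  have hρ' : ∀ x ∈ LinearMap.ker T, ρ x = x := by
    intro x hx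
    have h1 : T.rangeRestrict x = 0 := Subtype.ext (LinearMap.mem_ker.1 hx)
    change x - s (T.rangeRestrict x) = x
    rw [h1, map_zero, sub_zero]
  let b := Module.finBasis ℤ (LinearMap.ker T)
  let ℓ : (ι → ℤ) →ₗ[ℤ] (Fin (Module.finrank ℤ (LinearMap.ker T)) → ℤ) :=
    (b.equivFun : _ →ₗ[ℤ] _).comp (ρ.codRestrict (LinearMap.ker T) hρ)
  let ω : (Fin (Module.finrank ℤ (LinearMap.ker T)) → ℤ) →ₗ[ℤ] (ι → ℤ) :=
    (LinearMap.ker T).subtype.comp (b.equivFun.symm : _ →ₗ[ℤ] _)
  have hℓω : ℓ.comp ω = LinearMap.id := by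
    refine LinearMap.ext fun e => ?_
    have h1 : ρ.codRestrict (LinearMap.ker T) hρ (b.equivFun.symm e : LinearMap.ker T)
        = b.equivFun.symm e := Subtype.ext (hρ' _ (b.equivFun.symm e).2)
    change b.equivFun (ρ.codRestrict (LinearMap.ker T) hρ (b.equivFun.symm e : LinearMap.ker T)) = e
    rw [h1, LinearEquiv.apply_symm_apply]
  refine ⟨_, LinearMap.toMatrix' ω, LinearMap.toMatrix' ℓ, ?_, ?_, ?_⟩
  · rw [← LinearMap.toMatrix'_comp, hℓω, LinearMap.toMatrix'_id]
  · intro r k
    have h1 : T (ω (Pi.single k 1)) = 0 := (b.equivFun.symm (Pi.single k 1)).2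
    have h2 := congrFun h1 r
    rw [hT] at h2
    refine (Finset.sum_congr rfl fun j _ => ?_).trans h2
    rw [LinearMap.toMatrix'_apply]
  · intro c hc
    have h1 : c ∈ LinearMap.ker T := by
      rw [LinearMap.mem_ker]
      funext r
      exact hc r
    have e1 : LinearMap.toMatrix' ℓ *ᵥ c = ℓ c := by
      rw [← Matrix.toLin'_apply, Matrix.toLin'_toMatrix']
    have e2 : ∀ e, LinearMap.toMatrix' ω *ᵥ e = ω e := by
      intro e
      rw [← Matrix.toLin'_apply, Matrix.toLin'_toMatrix']
    rw [e1, e2]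
    have h3 : ρ.codRestrict (LinearMap.ker T) hρ c = ⟨c, h1⟩ := Subtype.ext (hρ' c h1)
    change ((b.equivFun.symm (b.equivFun (ρ.codRestrict (LinearMap.ker T) hρ c)) :
      LinearMap.ker T) : ι → ℤ) = c
    rw [LinearEquiv.symm_apply_apply, h3]

/-- Reduction of an integral matrix. -/
abbrev red (K : Type) [CommRing K] {m n : Type} (M : Matrix m n ℤ) : Matrix m n K :=
  M.map (Int.castRingHom K)

theorem mulVec_mem {K : Type} [CommRing K] {W ι κ : Type} [Fintype ι] [Fintype κ]
    {A : W → ι → ℤ} {w : Matrix ι κ ℤ} (h : ∀ r k, ∑ j, A r j * w j k = 0) (e : κ → K) :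
    red K w *ᵥ e ∈ kr K A := by
  intro r
  have h1 : ∀ k, ∑ j, (A r j : K) * (w j k : K) = 0 := by
    intro k
    have h2 := congrArg (Int.castRingHom K) (h r k)
    rw [map_sum, map_zero] at h2
    refine (Finset.sum_congr rfl fun j _ => ?_).trans h2
    rw [map_mul]
    rfl
  have h3 : ∀ j, (A r j : K) * (red K w *ᵥ e) j = ∑ k, (A r j : K) * (w j k : K) * e k := by
    intro j
    rw [Matrix.mulVec, dotProduct, Finset.mul_sum]
    exact Finset.sum_congr rfl fun k _ => (mul_assoc _ _ _).symm
  simp only [h3]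
  rw [Finset.sum_comm]
  refine Finset.sum_eq_zero fun k _ => ?_
  rw [← Finset.sum_mul, h1 k, zero_mul]

/-- If the corank of an integral matrix jumps modulo `p` then over a ring with `p`-torsion the
solutions are not generated by corank many elements. -/
theorem no_surj {p : ℕ} [Fact p.Prime] {W ι : Type} [Fintype ι] (A : W → ι → ℤ)
    (h : Module.finrank ℚ (kr ℚ A) < Module.finrank (ZMod p) (kr (ZMod p) A))
    (R : Type) [CommRing R] {a : R} (ha : a ≠ 0) (hpa : (p : R) * a = 0)
    (g : (Fin (Module.finrank ℚ (kr ℚ A)) → R) →ₗ[R] (ι → R))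
    (hs : ∀ c ∈ kr R A, ∃ e, g e = c) : False := by
  classical
  obtain ⟨m, w, l, hlw, hw, hwl⟩ := exists_split A
  have hred : ∀ (K : Type) [CommRing K], red K l * red K w = 1 := by
    intro K _
    rw [← Matrix.map_mul, hlw]
    exact Matrix.map_one _ (map_zero _) (map_one _)
  -- the rank
  have hm : Module.finrank ℚ (kr ℚ A) = m := by
    let u : (Fin m → ℚ) →ₗ[ℚ] kr ℚ A :=
      (red ℚ w).mulVecLin.codRestrict (kr ℚ A) fun e => mulVec_mem hw e
    have hu : Function.Bijective u := by
      constructor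
      · intro e e' hee
        have h1 : red ℚ w *ᵥ e = red ℚ w *ᵥ e' := congrArg Subtype.val hee
        have h2 := congrArg (fun v => red ℚ l *ᵥ v) h1
        simp only [Matrix.mulVec_mulVec, hred, Matrix.one_mulVec] at h2
        exact h2
      · rintro ⟨c, hc⟩
        obtain ⟨D, hD⟩ := IsLocalization.exist_integer_multiples_of_finite (nonZeroDivisors ℤ) c
        choose z hz using hD
        have hD0 : ((D : ℤ) : ℚ) ≠ 0 := Int.cast_ne_zero.2 (nonZeroDivisors.coe_ne_zero D)
        have hz' : ∀ j, (z j : ℚ) = (D : ℤ) * c j := by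
          intro j
          have := hz j
          rw [zsmul_eq_mul] at this
          exact this
        have hzN : ∀ r, ∑ j, A r j * z j = 0 := by
          intro r
          have h1 : ((∑ j, A r j * z j : ℤ) : ℚ) = 0 := by
            push_cast
            have h2 : ∀ j, (A r j : ℚ) * (z j : ℚ) = (D : ℤ) * ((A r j : ℚ) * c j) := by
              intro j
              rw [hz' j]
              ring
            simp only [h2, ← Finset.mul_sum]
            rw [hc r, mul_zero]
          exact_mod_cast h1
        have hzw := hwl z hzN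
        have hzc : (fun j => (z j : ℚ)) = ((D : ℤ) : ℚ) • c := by
          funext j
          exact hz' j
        have hmul : ∀ {m' n' : Type} [Fintype n'] (M : Matrix m' n' ℤ) (v : n' → ℤ),
            (fun i => ((M *ᵥ v) i : ℚ)) = red ℚ M *ᵥ (fun j => (v j : ℚ)) := by
          intro m' n' _ M v
          funext i
          rw [Matrix.mulVec, Matrix.mulVec, dotProduct, dotProduct]
          push_cast
          rfl
        have h3 : red ℚ w *ᵥ (red ℚ l *ᵥ (fun j => (z j : ℚ))) = fun j => (z j : ℚ) := by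
          rw [← hmul, ← hmul, hzw]
        rw [hzc, Matrix.mulVec_smul, Matrix.mulVec_smul] at h3
        have h4 : red ℚ w *ᵥ (red ℚ l *ᵥ c) = c := by
          have h5 := congrArg (fun v => (((D : ℤ) : ℚ))⁻¹ • v) h3
          simp only [smul_smul, inv_mul_cancel₀ hD0, one_smul] at h5
          exact h5
        exact ⟨red ℚ l *ᵥ c, Subtype.ext h4⟩
    have := LinearEquiv.finrank_eq (LinearEquiv.ofBijective u hu)
    rw [← this, Module.finrank_fintype_fun_eq_card, Fintype.card_fin]
  -- a solution modulo `p` which does not lift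
  have hker : ∃ v ∈ kr (ZMod p) A, v ≠ 0 ∧ red (ZMod p) l *ᵥ v = 0 := by
    by_contra hcon
    push Not at hcon
    let u : kr (ZMod p) A →ₗ[ZMod p] (Fin m → ZMod p) :=
      (red (ZMod p) l).mulVecLin.comp (kr (ZMod p) A).subtype
    have hu : Function.Injective u := by
      rw [injective_iff_map_eq_zero]
      rintro ⟨v, hv⟩ hv0
      by_contra hne
      exact hcon v hv (fun h0 => hne (Subtype.ext h0)) hv0
    have := LinearMap.finrank_le_finrank_of_injective hu
    rw [Module.finrank_fintype_fun_eq_card, Fintype.card_fin] at this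
    omega
  obtain ⟨vb, hvb, hvb0, hlvb⟩ := hker
  choose lf hlf using fun x : ZMod p => ZMod.intCast_surjective x
  obtain ⟨v0, hv0⟩ : ∃ v0 : ι → ℤ, ∀ j, (v0 j : ZMod p) = vb j := ⟨fun j => lf (vb j), fun j => hlf _⟩
  obtain ⟨v, hv⟩ : ∃ v : ι → ℤ, v = v0 - w *ᵥ (l *ᵥ v0) := ⟨_, rfl⟩
  have hlv : l *ᵥ v = 0 := by
    rw [hv, Matrix.mulVec_sub, Matrix.mulVec_mulVec, hlw, Matrix.one_mulVec, sub_self]
  have hAw : ∀ r, ∑ j, A r j * (w *ᵥ (l *ᵥ v0)) j = 0 := by
    intro r
    have h1 := mulVec_mem (K := ℤ) hw (l *ᵥ v0) r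
    have h2 : red ℤ w = w := by
      ext i j
      simp [red]
    rw [h2] at h1
    simpa using h1
  have hAv : ∀ r, (p : ℤ) ∣ ∑ j, A r j * v j := by
    intro r
    have h1 : ∑ j, A r j * v j = ∑ j, A r j * v0 j := by
      rw [hv]
      simp only [Pi.sub_apply, mul_sub, Finset.sum_sub_distrib, hAw r, sub_zero]
    rw [h1]
    rw [← ZMod.intCast_zmod_eq_zero_iff_dvd]
    push_cast
    simp only [hv0]
    exact hvb r
  have hvne : ∃ j, ¬ (p : ℤ) ∣ v j := by
    by_contra hcon
    push Not at hcon
    apply hvb0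
    funext j
    have h1 : ((v j : ℤ) : ZMod p) = 0 := (ZMod.intCast_zmod_eq_zero_iff_dvd _ _).2 (hcon j)
    have h2 : ∀ k, (((l *ᵥ v0) k : ℤ) : ZMod p) = 0 := by
      intro k
      have h3 := congrFun hlvb k
      rw [Matrix.mulVec, dotProduct] at h3 ⊢
      push_cast
      simp only [hv0]
      exact h3
    have h4 : (((w *ᵥ (l *ᵥ v0)) j : ℤ) : ZMod p) = 0 := by
      rw [Matrix.mulVec, dotProduct]
      push_cast
      exact Finset.sum_eq_zero fun k _ => by rw [h2 k, mul_zero]
    rw [hv, Pi.sub_apply, Int.cast_sub, h4, sub_zero, hv0] at h1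
    exact h1
  -- over `R`
  obtain ⟨x, hx⟩ : ∃ x : ι → R, x = fun j => (v j : R) * a := ⟨_, rfl⟩
  have hxk : x ∈ kr R A := by
    intro r
    obtain ⟨q, hq⟩ := hAv r
    have h1 : ∑ j, (A r j : R) * x j = ((∑ j, A r j * v j : ℤ) : R) * a := by
      push_cast
      rw [Finset.sum_mul]
      refine Finset.sum_congr rfl fun j _ => ?_
      rw [hx, mul_assoc]
    rw [h1, hq, Int.cast_mul, Int.cast_natCast, mul_comm (p : R), mul_assoc, hpa, mul_zero]
  have hlx : red R l *ᵥ x = 0 := by
    funext k
    have h1 : ((∑ j, l k j * v j : ℤ) : R) = 0 := by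
      have h3 := congrFun hlv k
      rw [Matrix.mulVec, dotProduct] at h3
      rw [h3, Pi.zero_apply, Int.cast_zero]
    rw [Matrix.mulVec, dotProduct]
    have h2 : ∑ j, red R l k j * x j = ((∑ j, l k j * v j : ℤ) : R) * a := by
      push_cast
      rw [Finset.sum_mul]
      refine Finset.sum_congr rfl fun j _ => ?_
      rw [hx, mul_assoc]
      rfl
    rw [h2, h1, zero_mul]
    rfl
  have hinj : Function.Injective ((red R l).mulVecLin.comp g) := by
    have hsurj : ∀ e : Fin m → R, ∃ y, ((red R l).mulVecLin.comp g) y = e := by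
      intro e
      obtain ⟨y, hy⟩ := hs _ (mulVec_mem (K := R) hw e)
      refine ⟨y, ?_⟩
      rw [LinearMap.comp_apply, hy, Matrix.mulVecLin_apply, Matrix.mulVec_mulVec, hred,
        Matrix.one_mulVec]
    have key : ∀ (n : ℕ) (f : (Fin n → R) →ₗ[R] (Fin m → R)), n = m →
        (∀ e, ∃ y, f y = e) → Function.Injective f := by
      rintro n f rfl hf
      exact OrzechProperty.injective_of_surjective_endomorphism f hf
    exact key _ _ hm hsurj
  obtain ⟨y, hy⟩ := hs x hxk
  have hy0 : y = 0 := by
    apply hinj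
    rw [map_zero, LinearMap.comp_apply, hy, Matrix.mulVecLin_apply, hlx]
  have hx0 : x = 0 := by rw [← hy, hy0, map_zero]
  obtain ⟨j, hj⟩ := hvne
  apply ha
  have hcop : IsCoprime (p : ℤ) (v j) :=
    ((Nat.prime_iff_prime_int.1 (Fact.out : p.Prime)).coprime_iff_not_dvd).2 hj
  obtain ⟨s, t, hst⟩ := hcop
  have h1 : (v j : R) * a = 0 := by
    have := congrFun hx0 j
    rwa [hx] at this
  have h2 : ((s * p + t * v j : ℤ) : R) * a = 1 * a := by rw [hst, Int.cast_one]
  rw [one_mul] at h2
  rw [← h2]
  push_cast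
  rw [add_mul, mul_assoc, mul_assoc, hpa, h1, mul_zero, mul_zero, add_zero]

/-- The dimension of the solution space does not change under field extensions. -/
theorem kr_finrank_ext {k K : Type} [Field k] [Field K] (u : k →+* K) {W ι : Type}
    [Fintype ι] (A : W → ι → ℤ) : Module.finrank K (kr K A) = Module.finrank k (kr k A) := by
  classical
  obtain ⟨κ, a, -, hspan, hli⟩ :=
    exists_linearIndependent' k (fun w : W => fun j => (A w j : k))
  have : Finite κ := hli.finite
  let _ : Fintype κ := Fintype.ofFinite κ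
  let B : Matrix κ ι ℤ := Matrix.of fun k j => A (a k) j
  have hu : ∀ z : ℤ, u (z : k) = (z : K) := fun z => map_intCast u z
  have hliB : LinearIndependent k (fun i => (red k B) i) := hli
  obtain ⟨Sp, hSp⟩ := exists_right_inv (red k B) hliB
  have hBK : (red K B) * (Sp.map u) = 1 := by
    have h1 : (red k B).map u = red K B := by
      ext i j
      exact hu _
    rw [← h1, ← Matrix.map_mul, hSp]
    ext i l
    rw [Matrix.map_apply, Matrix.one_apply, Matrix.one_apply]
    split_ifs
    · exact map_one u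
    · exact map_zero u
  have hrow : ∀ w, ∃ c : κ → k, ∀ j, (A w j : k) = ∑ i, c i * (A (a i) j : k) := by
    intro w
    have hw : (fun j => (A w j : k)) ∈ Submodule.span k
        (Set.range ((fun w : W => fun j => (A w j : k)) ∘ a)) := by
      rw [hspan]
      exact Submodule.subset_span ⟨w, rfl⟩
    obtain ⟨c, hc⟩ := (Submodule.mem_span_range_iff_exists_fun k).1 hw
    refine ⟨c, fun j => ?_⟩
    have := congrFun hc j
    rw [Finset.sum_apply] at this
    exact this.symm
  have hk : kr k A = LinearMap.ker (red k B).mulVecLin := by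
    ext d
    rw [mem_kr, LinearMap.mem_ker, Matrix.mulVecLin_apply]
    constructor
    · intro h
      funext i
      exact h (a i)
    · intro h w
      obtain ⟨c, hj⟩ := hrow w
      have h2 : ∀ i, ∑ j, (A (a i) j : k) * d j = 0 := fun i => congrFun h i
      simp only [hj, Finset.sum_mul]
      rw [Finset.sum_comm]
      refine Finset.sum_eq_zero fun i _ => ?_
      simp only [mul_assoc]
      rw [← Finset.mul_sum, h2 i, mul_zero]
  have hK : kr K A = LinearMap.ker (red K B).mulVecLin := by
    ext d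
    rw [mem_kr, LinearMap.mem_ker, Matrix.mulVecLin_apply]
    constructor
    · intro h
      funext i
      exact h (a i)
    · intro h w
      obtain ⟨c, hc⟩ := hrow w
      have hj : ∀ j, (A w j : K) = ∑ i, u (c i) * (A (a i) j : K) := by
        intro j
        have h2 := congrArg u (hc j)
        rw [map_sum, hu] at h2
        rw [h2]
        refine Finset.sum_congr rfl fun i _ => ?_
        rw [map_mul, hu]
      have h2 : ∀ i, ∑ j, (A (a i) j : K) * d j = 0 := fun i => congrFun h i
      simp only [hj, Finset.sum_mul]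
      rw [Finset.sum_comm]
      refine Finset.sum_eq_zero fun i _ => ?_
      simp only [mul_assoc]
      rw [← Finset.mul_sum, h2 i, mul_zero]
  have e1 := finrank_ker _ _ hBK
  have e2 := finrank_ker _ _ hSp
  rw [hK, hk]
  omega

/-- If the corank of an integral matrix jumps modulo `p` then over a ring with `p`-torsion the
solutions are not generated by corank many elements. -/
theorem kr_not_gen {p : ℕ} [Fact p.Prime] {W ι : Type} [Fintype ι] (A : W → ι → ℤ)
    (h : Module.finrank ℂ (kr ℂ A) < Module.finrank (ZMod p) (kr (ZMod p) A))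
    (R : Type) [CommRing R] (r : R) (hr : r ≠ 0) (hpr : (p : R) * r = 0)
    (g : (Fin (Module.finrank ℂ (kr ℂ A)) → R) →ₗ[R] (ι → R))
    (hg : LinearMap.range g = kr R A) : False := by
  have e : Module.finrank ℂ (kr ℂ A) = Module.finrank ℚ (kr ℚ A) :=
    kr_finrank_ext (algebraMap ℚ ℂ) A
  have key : ∀ (n : ℕ) (g : (Fin n → R) →ₗ[R] (ι → R)), n = Module.finrank ℚ (kr ℚ A) →
      LinearMap.range g = kr R A → False := by
    rintro n g rfl hg
    refine no_surj A (by rw [← e]; exact h) R hr hpr g ?_
    intro c hc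
    rw [← hg] at hc
    exact hc
  exact key _ g e hg

end Vale.Agent.P029.H140
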