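import Vale.Agent.P029.H140.Comp

/-!
# P029: solutions over `R` in the weights `0`, `1`, `2`
-/

noncomputable section

attribute [local instance 100] LieRing.ofAssociativeRing

namespace Vale.Agent.P029.H140

open Vale.Agent.P029 Low.Z819 Homog

variable {R : Type} [CommRing R]

theorem tr_wt_pos (t : Tr (Fin 2)) : 0 < t.wt (fun _ => 1) := by
  induction t with
  | leaf i => exact one_pos
  | node a b ha hb =>
    rw [Tr.wt_node]
    omega

/-- There is nothing in weight zero. -/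
theorem wt2_zero {ψ : Low.LK R} (h : ψ ∈ Low.wt2 R 0) : ψ = 0 := by
  refine Low.wt_induction (P := fun ψ => ψ = 0) ?_ rfl ?_ ?_ h
  · intro t ht
    exact absurd ht (tr_wt_pos t).ne'
  · rintro _ _ rfl rfl
    exact add_zero 0
  · rintro c _ rfl
    exact smul_zero c

theorem wt2_one {ψ : Low.LK R} (h : ψ ∈ Low.wt2 R 1) :
    ∃ a b : R, ψ = a • Low.kx R + b • Low.ky R := by
  refine Low.wt_induction (P := fun ψ => ∃ a b : R, ψ = a • Low.kx R + b • Low.ky R) ?_ ?_ ?_ ?_ h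
  · intro t ht
    cases t with
    | leaf i =>
      fin_cases i
      · exact ⟨1, 0, by rw [one_smul, zero_smul, add_zero]; rfl⟩
      · exact ⟨0, 1, by rw [one_smul, zero_smul, zero_add]; rfl⟩
    | node a b =>
      rw [Tr.wt_node] at ht
      have := tr_wt_pos a
      have := tr_wt_pos b
      omega
  · exact ⟨0, 0, by rw [zero_smul, zero_smul, add_zero]⟩
  · rintro _ _ ⟨a, b, rfl⟩ ⟨c, d, rfl⟩
    exact ⟨a + c, b + d, by rw [add_smul, add_smul]; abel⟩
  · rintro c _ ⟨a, b, rfl⟩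
    exact ⟨c * a, c * b, by rw [smul_add, smul_smul, smul_smul]⟩

theorem wt2_two {ψ : Low.LK R} (h : ψ ∈ Low.wt2 R 2) :
    ∃ a : R, ψ = a • ⁅Low.kx R, Low.ky R⁆ := by
  refine Low.wt_induction (P := fun ψ => ∃ a : R, ψ = a • ⁅Low.kx R, Low.ky R⁆) ?_ ?_ ?_ ?_ h
  · intro t ht
    cases t with
    | leaf i => exact absurd ht (by rw [Tr.wt]; omega)
    | node a b =>
      rw [Tr.wt_node] at ht
      have h1 := tr_wt_pos a
      have h2 := tr_wt_pos b
      cases a with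
      | node a a' =>
        rw [Tr.wt_node] at ht h1
        have := tr_wt_pos a
        have := tr_wt_pos a'
        omega
      | leaf i =>
        cases b with
        | node b b' =>
          rw [Tr.wt_node] at ht h2
          have := tr_wt_pos b
          have := tr_wt_pos b'
          omega
        | leaf j =>
          rw [Tr.eval_node]
          fin_cases i <;> fin_cases j
          · exact ⟨0, by rw [zero_smul]; exact lie_self _⟩
          · exact ⟨1, by rw [one_smul]; rfl⟩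
          · exact ⟨-1, by rw [neg_smul, one_smul, lie_skew]; rfl⟩
          · exact ⟨0, by rw [zero_smul]; exact lie_self _⟩
  · exact ⟨0, by rw [zero_smul]⟩
  · rintro _ _ ⟨a, rfl⟩ ⟨c, rfl⟩
    exact ⟨a + c, by rw [add_smul]⟩
  · rintro c _ ⟨a, rfl⟩
    exact ⟨c * a, by rw [smul_smul]⟩

/-- Weight zero. -/
theorem wn_zero {ψ : H819.L R} (h : H819.IsWn R 0 ψ) : ψ = 0 := by
  have h1 := h.2
  rw [wtPart_eq] at h1
  exact wt2_zero h1

/-- Weight one. -/
theorem wn_one {ψ : H819.L R} (h : H819.IsWn R 1 ψ) : ψ = 0 := by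
  have h1 := h.2
  rw [wtPart_eq] at h1
  obtain ⟨a, b, rfl⟩ := wt2_one h1
  obtain ⟨⟨hA, -, hP⟩, -⟩ := h
  rw [anti_iff] at hA
  rw [penta_iff] at hP
  have e1 := congrArg (Low.sb (1 : R) 0 : Low.LK R →ₗ⁅R⁆ R) hA
  simp only [map_zero, map_add, map_smul, Low.sb_x, Low.sb_y, smul_eq_mul, mul_one,
    mul_zero, add_zero, zero_add] at e1
  obtain rfl : b = -a := (neg_eq_of_add_eq_zero_right e1).symm
  have hP5 : P5 (![1, 0, 0, 0, 0] : Fin 5 → R) := by
    constructor
    · intro i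
      rw [Ring.lie_def, mul_comm, sub_self]
    · refine Finset.sum_eq_zero fun i _ => ?_
      rw [Ring.lie_def, mul_comm, sub_self]
  obtain ⟨g, hg, g01, g12, g23, g02, g13, -⟩ := ft_homR (R := R) _ hP5
  have e2 := hg _ hP
  simp only [pen, map_sub, map_add, map_smul, Low.sb_x, Low.sb_y, g01, g12, g23, g02, g13,
    smul_eq_mul] at e2
  simp at e2
  rw [e2, zero_smul, neg_zero, zero_smul, add_zero]

/-- Weight two, if `3` is invertible. -/
theorem wn_two (h3 : IsUnit (3 : R)) {ψ : H819.L R} (h : H819.IsWn R 2 ψ) : ψ = 0 := by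
  have h1 := h.2
  rw [wtPart_eq] at h1
  obtain ⟨a, rfl⟩ := wt2_two h1
  obtain ⟨⟨-, hH, -⟩, -⟩ := h
  rw [hexa_iff] at hH
  rw [map_smul, map_smul, LieHom.map_lie, LieHom.map_lie, Low.sb_x, Low.sb_y, Low.sb_x, Low.sb_y,
    sub_lie, lie_sub, neg_lie, lie_neg, lie_self, lie_self, ← lie_skew (Low.ky R) (Low.kx R)] at hH
  have e : (3 : R) • (a • ⁅Low.kx R, Low.ky R⁆) = 0 := by
    rw [← hH, show (3 : R) = 1 + 1 + 1 by norm_num, add_smul, add_smul, one_smul]
    congr 1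
    · congr 2
      abel
    · congr 1
      abel
  exact h3.smul_eq_zero.1 e

theorem smul_lie_isWn {a : R} (h3 : 3 * a = 0) : H819.IsWn R 2 (a • ⁅H819.x R, H819.y R⁆) := by
  refine ⟨⟨?_, ?_, ?_⟩, ?_⟩
  · rw [anti_iff]
    show a • ⁅Low.kx R, Low.ky R⁆ + Low.sb (Low.ky R) (Low.kx R) (a • ⁅Low.kx R, Low.ky R⁆) = 0
    rw [map_smul, LieHom.map_lie, Low.sb_x, Low.sb_y, ← smul_add, ← lie_skew, neg_add_cancel,
      smul_zero]
  · rw [hexa_iff]
    show a • ⁅Low.kx R, Low.ky R⁆ +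
      Low.sb (Low.ky R) (-Low.kx R - Low.ky R) (a • ⁅Low.kx R, Low.ky R⁆) +
      Low.sb (-Low.kx R - Low.ky R) (Low.kx R) (a • ⁅Low.kx R, Low.ky R⁆) = 0
    have e : (3 * a) • (⁅Low.kx R, Low.ky R⁆ : Low.LK R) = 0 := by rw [h3, zero_smul]
    refine Eq.trans ?_ e
    rw [map_smul, map_smul, LieHom.map_lie, LieHom.map_lie, Low.sb_x, Low.sb_y, Low.sb_x, Low.sb_y,
      sub_lie, lie_sub, neg_lie, lie_neg, lie_self, lie_self, ← lie_skew (Low.ky R) (Low.kx R),
      show (3 : R) * a = a + a + a by ring, add_smul, add_smul]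
    congr 1
    · congr 2
      abel
    · congr 1
      abel
  · show Low.sb (H819.t R 0 1) (H819.t R 1 2 + H819.t R 1 3) (a • ⁅Low.kx R, Low.ky R⁆) +
      Low.sb (H819.t R 0 2 + H819.t R 1 2) (H819.t R 2 3) (a • ⁅Low.kx R, Low.ky R⁆) =
      Low.sb (H819.t R 1 2) (H819.t R 2 3) (a • ⁅Low.kx R, Low.ky R⁆) +
      Low.sb (H819.t R 0 1 + H819.t R 0 2) (H819.t R 1 3 + H819.t R 2 3)
        (a • ⁅Low.kx R, Low.ky R⁆) +
      Low.sb (H819.t R 0 1) (H819.t R 1 2) (a • ⁅Low.kx R, Low.ky R⁆)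
    have c1 : ⁅H819.t R 0 1, H819.t R 2 3⁆ = 0 :=
      t_comm 0 1 2 3 (by decide) (by decide) (by decide) (by decide) (by decide) (by decide)
    have c2 : ⁅H819.t R 0 2, H819.t R 1 3⁆ = 0 :=
      t_comm 0 2 1 3 (by decide) (by decide) (by decide) (by decide) (by decide) (by decide)
    simp only [map_smul, LieHom.map_lie, Low.sb_x, Low.sb_y, lie_add, add_lie, c1, c2, smul_add,
      smul_zero]
    abel
  · rw [wtPart_eq]
    have h := Low.wt_lie (Low.kx_wt (K := R)) (Low.ky_wt (K := R))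
    exact Submodule.smul_mem _ a h

theorem lie_isWn (h3 : (3 : R) = 0) : H819.IsWn R 2 ⁅H819.x R, H819.y R⁆ := by
  have h := smul_lie_isWn (R := R) (a := 1) (by rw [h3, zero_mul])
  rwa [one_smul] at h

theorem smul_lie_eq_zero {a : R} (h0 : a • (⁅H819.x R, H819.y R⁆ : H819.L R) = 0) : a = 0 := by
  have h1 : a • (⁅Low.kx R, Low.ky R⁆ : Low.LK R) = 0 := h0
  let f : Low.LK R →ₗ⁅R⁆ Matrix (Fin 2) (Fin 2) R := Low.sb !![0, 1; 0, 0] !![0, 0; 1, 0]
  have e1 : f (a • ⁅Low.kx R, Low.ky R⁆) = 0 := by rw [h1]; exact map_zero f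
  rw [map_smul, LieHom.map_lie, show f (Low.kx R) = !![0, 1; 0, 0] from Low.sb_x _ _,
    show f (Low.ky R) = !![0, 0; 1, 0] from Low.sb_y _ _, Ring.lie_def] at e1
  have e2 := congrFun (congrFun e1 0) 0
  simpa using e2

theorem lie_ne_zero (h : (1 : R) ≠ 0) : (⁅H819.x R, H819.y R⁆ : H819.L R) ≠ 0 := fun h0 =>
  h (smul_lie_eq_zero (by rw [one_smul]; exact h0))

/-- The solutions of weight two over any `R`. -/
theorem wn_two_iff (ψ : H819.L R) : H819.IsWn R 2 ψ ↔
    ∃ a : R, 3 * a = 0 ∧ ψ = a • ⁅H819.x R, H819.y R⁆ := by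
  constructor
  · intro h
    have h1 := h.2
    rw [wtPart_eq] at h1
    obtain ⟨a, rfl⟩ := wt2_two h1
    refine ⟨a, ?_, rfl⟩
    obtain ⟨⟨-, hH, -⟩, -⟩ := h
    rw [hexa_iff] at hH
    rw [map_smul, map_smul, LieHom.map_lie, LieHom.map_lie, Low.sb_x, Low.sb_y, Low.sb_x,
      Low.sb_y, sub_lie, lie_sub, neg_lie, lie_neg, lie_self, lie_self,
      ← lie_skew (Low.ky R) (Low.kx R)] at hH
    apply smul_lie_eq_zero
    show (3 * a) • ⁅Low.kx R, Low.ky R⁆ = 0
    rw [← hH, show (3 : R) * a = a + a + a by ring, add_smul, add_smul]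
    congr 1
    · congr 2
      abel
    · congr 1
      abel
  · rintro ⟨a, ha, rfl⟩
    exact smul_lie_isWn ha

/-- The exceptional solution in weight two over the field with three elements. -/
theorem wn_two_three : H819.IsWn (ZMod 3) 2 ⁅H819.x (ZMod 3), H819.y (ZMod 3)⁆ ∧
    (⁅H819.x (ZMod 3), H819.y (ZMod 3)⁆ : H819.L (ZMod 3)) ≠ 0 :=
  ⟨lie_isWn (by decide), lie_ne_zero (by decide)⟩

end Vale.Agent.P029.H140
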